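import Claimed.Agent.R316.Base.RGeo.Par

/-!
# Row 316 base layer: the two hypothesis-free facts on `IsGeodesic` shared by `Base/Tub/Spray.lean` (G3)
and `Base/Geod/Api.lean` (G4)

(they were declared twice, with different hypotheses; this file is imported by both.)
Chart level input: `RGeo.IsGeod.comp_affine`, `RGeo.isGeod_const` (`BP-G1`, `RGeo/Par.lean`).
-/

set_option autoImplicit false
open scoped ContDiff ComplexOrder Topology

namespace Claimed.Agent.R316

/-- `RGeo.IsGeod` on an interval without boundary points only depends on the values of the curve there. -/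
theorem geod_isGeod_congr {W : Type} [NormedAddCommGroup W] [NormedSpace ℝ W] {S : RGeo W}
    {c c' : ℝ → W} {I : Set ℝ} (hI : IsOpen I) (hc : S.IsGeod c I) (he : Set.EqOn c' c I) :
    S.IsGeod c' I := by
  refine ⟨hc.1.congr he, fun t ht => he ht ▸ hc.2.1 t ht, fun t ht => ?_⟩
  have h1 : c' =ᶠ[𝓝 t] c := by
    filter_upwards [hI.mem_nhds ht] with s hs using he hs
  have h2 : deriv c' =ᶠ[𝓝 t] deriv c := h1.deriv
  rw [← hc.2.2 t ht]
  simp only [RGeo.covD, h2.deriv_eq, h1.self_of_nhds, h2.self_of_nhds]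

variable {V : Type} [NormedAddCommGroup V] [NormedSpace ℝ V]
variable {ι : Type} [Fintype ι] [DecidableEq ι]
variable {𝓜 : CMfd V ι} {h : HFam V ι} {γ : ℝ → V}

/-- restriction of the interval. -/
theorem IsGeodesic.mono {I I' : Set ℝ} (hγ : IsGeodesic 𝓜 h γ I) (hsub : I' ⊆ I) :
    IsGeodesic 𝓜 h γ I' :=
  ⟨hγ.1.mono hsub, fun t ht => hγ.2.1 t (hsub ht),
    fun Φ U hΦ c J hJ hJo hc => hγ.2.2 Φ U hΦ c J (hJ.trans hsub) hJo hc⟩

/-- affine reparametrisation. -/
theorem IsGeodesic.comp_affine {I : Set ℝ} (hγ : IsGeodesic 𝓜 h γ I) (c d : ℝ) :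
    IsGeodesic 𝓜 h (fun t => γ (c * t + d)) ((fun t => c * t + d) ⁻¹' I) := by
  refine ⟨?_, fun t ht => hγ.2.1 _ ht, ?_⟩
  · have haff : ContDiff ℝ ∞ (fun t : ℝ => c * t + d) := by fun_prop
    exact hγ.1.comp haff.contDiffOn (fun t ht => ht)
  · intro Φ U hΦ e J hJ hJo he
    by_cases hc : c = 0
    · subst hc
      rcases J.eq_empty_or_nonempty with rfl | ⟨r₀, hr₀⟩
      · exact ⟨contDiffOn_empty, by simp, by simp⟩
      have hconst : Set.EqOn e (fun _ => e r₀) J := fun r hr =>
        (𝓜.isParam hΦ).injOn (he r hr).1 (he r₀ hr₀).1 (by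
          rw [(he r hr).2, (he r₀ hr₀).2]; simp)
      exact geod_isGeod_congr hJo (RGeo.isGeod_const (S := kgeo h Φ U) (he r₀ hr₀).1 J) hconst
    · have hJ'o : IsOpen ((fun t : ℝ => (t - d) / c) ⁻¹' J) :=
        hJo.preimage (by fun_prop)
      have hcd : ∀ t : ℝ, c * ((t - d) / c) + d = t := fun t => by field_simp; ring
      have hdc : ∀ r : ℝ, (c * r + d - d) / c = r := fun r => by field_simp; ring
      have hJ'I : (fun t : ℝ => (t - d) / c) ⁻¹' J ⊆ I := fun t ht => by
        have := hJ ht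
        simp only [Set.mem_preimage, hcd] at this
        exact this
      have h1 : (kgeo h Φ U).IsGeod (fun t => e ((t - d) / c)) ((fun t : ℝ => (t - d) / c) ⁻¹' J) :=
        hγ.2.2 Φ U hΦ _ _ hJ'I hJ'o (fun t ht => ⟨(he _ ht).1, by
          rw [(he _ ht).2]
          show γ (c * ((t - d) / c) + d) = γ t
          rw [hcd]⟩)
      have h2 := h1.comp_affine hJ'o c d
      have e1 : (fun r => (fun t => e ((t - d) / c)) (c * r + d)) = e := by
        funext r
        show e ((c * r + d - d) / c) = e r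
        rw [hdc]
      have e2 : (fun r : ℝ => c * r + d) ⁻¹' ((fun t : ℝ => (t - d) / c) ⁻¹' J) = J := by
        ext r
        show (c * r + d - d) / c ∈ J ↔ r ∈ J
        rw [hdc]
      rwa [e1, e2] at h2

end Claimed.Agent.R316
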