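import Claimed.Agent.R316.Base.Geod.Ball

/-!
# Row 316 base layer, `BP-G4`, leaves `G4-SEG`, `G4-RAY`, `G4-EXIT`: metric segments are geodesics, Hopf-Rinow, rays, exit segments

Sub-captain of `BP-G4`: helper256.  Statements of `exists_minGeod`, `exists_minGeod_of_proper`, `isMinGeod_of_metric_segment`, `exists_ray`, `exists_exit_segment`: helper97 (export file `Api.lean`), verbatim.
STATUS: this file is sorry-free (everything is PROVED from the imported statements).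
Everything in this file is FORMAL: it only uses `geod_exists_normal` (`Ball.lean`), `geod_no_corner` (`Speed.lean`), `IsGeodesic.glue/eqOn/shift/congr/of_local/union` (`Uniq.lean`, `Loc.lean`), the `IsMinGeod` API (`Min.lean`) and the metric API of `BP-G0`.  No chart, no ODE.

RECIPE `G4-SEG`.
* `geod_between`: `a := d(x,z)`, `b := d(z,y)`, `l = a + b = d(x,y)`.  `a = 0`: `z = x = σ 0` (`hdist_eq_zero_iff`); `b = 0`: `z = y = σ l`.  Otherwise take minimizing geodesics `α : x → z`, `β : z → y` (normal ball (i)).  `c₁ := β`, `c₂ t := α (a - t)`.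
  For small `t > 0`: `d(c₁ t, c₂ t) ≤ 2 t` (triangle inequality through `z`) and `l ≤ (a - t) + d(c₂ t, c₁ t) + (b - t)`: `d = 2 t`.  `geod_no_corner`: `β' 0 = - c₂' 0 = α' a`.  `IsGeodesic.glue` of `α` and `t ↦ β (t - a)` at `t₀ = a`: a geodesic `σ'` on an interval `⊇ Ioo (-ε) (l + ε)`,
  `σ' 0 = x`, `σ' l = y`, unit speed at `0` (`σ' = α` near `0`).  Normal ball (ii) with `l = d(x,y) < 2 ρ`: `σ' ' 0 = σ ' 0`; `IsGeodesic.eqOn`: `σ a = σ' a = α a = z`.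
* `geod_segment_local`: `p := γ t₀`, `ρ` from `geod_exists_normal`.  For `s < t` in `Icc 0 l ∩ Ioo (t₀ - ρ) (t₀ + ρ)`: `γ s, γ t, γ r ∈ hball p ρ` for `r ∈ Icc s t`; `σ` minimizing from `γ s` to `γ t` (length `t - s`); `geod_between`: `σ (r - s) = γ r`.
* `isMinGeod_of_metric_segment`: `γ` is a geodesic on `Ioo 0 l` (`geod_segment_local` around every `t₀`, `IsGeodesic.shift`, `congr`, `of_local`).  At `t₀ = 0` (`s = 0`, `t = min l (ρ/2)`) and `t₀ = l` the local geodesics `σ` live on intervals which go beyond `0` resp. `l`: glue them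
  with `γ|_(0,l)` (`IsGeodesic.glue`; common 1-jet because the curves agree on an open interval: `Filter.EventuallyEq.deriv_eq`).
* `exists_minGeod`: `d(x,y) = 0`: `x = y`, `exists_geodesic` with `v = 0`.  Otherwise `exists_metric_segment` + `isMinGeod_of_metric_segment`.

RECIPE `G4-RAY`.
* `geod_exists_metric_ray`: `y_n` with `d(o, y_n) = n` (`exists_hdist_eq`), metric segments `γ_n` on `[0,n]` (`exists_metric_segment`, properness).  `𝒰 := Filter.hyperfilter ℕ`.  For `t ≥ 0`: `γ_n t ∈ hcball o t` for `n ≥ t`, a compact set: `γ t := lim_𝒰 γ_n t`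
  (`IsCompact.ultrafilter_le_nhds` for `𝒰.map (fun n => γ_n t)`; cofinite sets belong to the hyperfilter: `Filter.hyperfilter_le_cofinite`, `Nat.cofinite_eq_atTop`).  `d(γ s, γ t) = lim_𝒰 d(γ_n s, γ_n t) = |s - t|` (`continuousOn_hdist`, `tendsto_nhds_unique`).
* `exists_ray`: `γ` metric ray.  For each `n ≥ 1` `isMinGeod_of_metric_segment` on `[0,n]` gives a geodesic `γ'_n = γ` on `Icc 0 n`: `γ` is a geodesic on `Ioi 0` (`of_local`, `congr`, `mono`).  `σ t := if t ≤ 0 then γ'_1 t else γ t` equals `γ'_1` on `Ioo (-ε) 1` and `γ` on `Ioi 0`: `IsGeodesic.union`, `Ioo (-ε) 1 ∪ Ioi 0 = Ioi (-ε)`.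

RECIPE `G4-EXIT` (`exists_exit_segment`).  `F := K \ O` is compact, `⊆ M`.  For `p ∈ M \ O` and `ε > 0` `exists_boundary_point` gives `q ∈ M \ O`, `q ∈ closure (M ∩ O) ⊆ K` (`IsCompact.isClosed`, `closure_minimal`), i.e. `q ∈ F`, `d(o,q) + d(q,p) ≤ d(o,p) + ε`.  So `F ≠ ∅`; `y ∈ F` of least distance `m`
  (`exists_hdist_eq_iInf`); `m ≤ d(o,p)` for all `p ∈ M \ O` (`le_of_forall_pos_le_add`).  `hcball o m ⊆ K`: a point `z ∈ M \ O` with `d(o,z) ≤ m` has `q_ε ∈ F` with `d(q_ε, z) ≤ ε`, so `z ∈ closure F = F` (`hasBasis_nhdsWithin_hball`, `mem_closure_iff_nhdsWithin_neBot`/`mem_closure_iff_frequently`).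
  `hcball o m` is compact (`exists_isClosed_hcball`, `g0_isCompact_of_subset`); `exists_minGeod`; for `t < m`: `d(o, γ t) = t < m`, so `γ t ∈ O`.
-/

set_option autoImplicit false
set_option linter.unusedSectionVars false
set_option linter.unusedVariables false
open scoped ContDiff ComplexOrder Topology

namespace Claimed.Agent.R316

variable {V : Type} [NormedAddCommGroup V] [NormedSpace ℝ V] [FiniteDimensional ℝ V]
variable {ι : Type} [Fintype ι] [DecidableEq ι]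
variable {𝓜 : CMfd V ι} {h : HFam V ι} {γ : ℝ → V} {x y o : V} {l : ℝ}

/-! ### `G4-SEG` -/

/-- in a normal ball a point between `x` and `y` lies on every minimizing geodesic from `x` to `y`.  (`ρ` is a radius as in `geod_exists_normal`: the two properties are passed as hypotheses.) -/
theorem geod_between (hk : IsKahler 𝓜 h) (hconn : IsConnected 𝓜.carrier) {p : V} {ρ : ℝ}
    (hN₁ : ∀ x ∈ hball 𝓜 h p ρ, ∀ y ∈ hball 𝓜 h p ρ,
        ∃ γ : ℝ → V, IsMinGeod 𝓜 h γ x y (hdist 𝓜 h x y))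
    (hN₂ : ∀ x ∈ hball 𝓜 h p ρ, ∀ (γ₁ γ₂ : ℝ → V) (l ε : ℝ), 0 < ε → 0 < l → l < 2 * ρ →
        IsGeodesic 𝓜 h γ₁ (Set.Ioo (-ε) (l + ε)) → IsGeodesic 𝓜 h γ₂ (Set.Ioo (-ε) (l + ε)) →
        γ₁ 0 = x → γ₂ 0 = x → ambQ 𝓜 h x (deriv γ₁ 0) = 1 → ambQ 𝓜 h x (deriv γ₂ 0) = 1 →
        γ₁ l = γ₂ l → deriv γ₁ 0 = deriv γ₂ 0)
    (hp : p ∈ 𝓜.carrier) {z : V} (hx : x ∈ hball 𝓜 h p ρ) (hy : y ∈ hball 𝓜 h p ρ)
    (hz : z ∈ hball 𝓜 h p ρ) (hd : hdist 𝓜 h x z + hdist 𝓜 h z y = hdist 𝓜 h x y) {σ : ℝ → V}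
    (hσ : IsMinGeod 𝓜 h σ x y (hdist 𝓜 h x y)) : σ (hdist 𝓜 h x z) = z := by
  have hm := hk.toIsMetric
  have hxM := hx.1
  have hyM := hy.1
  have hzM := hz.1
  obtain ⟨α, hα⟩ := hN₁ x hx z hz
  obtain ⟨β, hβ⟩ := hN₁ z hz y hy
  have hl2 : hdist 𝓜 h x y < 2 * ρ := by
    have h1 := hdist_triangle hm hconn hxM hp hyM
    have h2 := hx.2
    have h3 := hy.2
    rw [hdist_comm hm p x] at h2
    linarith
  have ha0 : 0 ≤ hdist 𝓜 h x z := hdist_nonneg _ _ _ _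
  have hb0 : 0 ≤ hdist 𝓜 h z y := hdist_nonneg _ _ _ _
  have hxz : hdist 𝓜 h x z = 0 → x = z := (hdist_eq_zero_iff hm hconn hxM hzM).1
  have hzy : hdist 𝓜 h z y = 0 → z = y := (hdist_eq_zero_iff hm hconn hzM hyM).1
  generalize hdist 𝓜 h x z = a at *
  generalize hdist 𝓜 h z y = b at *
  generalize hdist 𝓜 h x y = l at *
  rcases ha0.eq_or_lt with ha' | ha'
  · rw [← ha', hσ.2.1, hxz ha'.symm]
  rcases hb0.eq_or_lt with hb' | hb'
  · have : a = l := by linarith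
    rw [this, hσ.2.2.1, hzy hb'.symm]
  have hl0 : 0 < l := by linarith
  obtain ⟨⟨εσ, hεσ, hσg⟩, hσ0, hσl, -, hσd⟩ := id hσ
  obtain ⟨⟨εα, hεα, hαg⟩, hα0, hαa, -, hαd⟩ := id hα
  obtain ⟨⟨εβ, hεβ, hβg⟩, hβ0, hβb, -, hβd⟩ := id hβ
  -- the reversed geodesic
  have hrev := hαg.reverse a
  have h0rev : (0 : ℝ) ∈ Set.Ioo (a - (a + εα)) (a - -εα) := ⟨by linarith, by linarith⟩
  have h0β : (0 : ℝ) ∈ Set.Ioo (-εβ) (b + εβ) := ⟨by linarith, by linarith⟩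
  have haα : a ∈ Set.Ioo (-εα) (a + εα) := ⟨by linarith, by linarith⟩
  have h0α : (0 : ℝ) ∈ Set.Ioo (-εα) (a + εα) := ⟨by linarith, by linarith⟩
  have hdrev : deriv (fun t => α (a - t)) 0 = - deriv α a := by
    have := deriv_comp_const_sub (f := α) a (0 : ℝ)
    simpa using this
  have htan : deriv α a ∈ 𝓜.tangent z := by
    have := hαg.deriv_mem_tangent isOpen_Ioo haα
    rwa [hαa] at this
  have hcorner : deriv β 0 = - deriv (fun t => α (a - t)) 0 := by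
    refine geod_no_corner hm (x := z) (hβg.differentiableAt isOpen_Ioo h0β)
      (hrev.differentiableAt isOpen_Ioo h0rev) hβ0 (by simp [hαa])
      (hβg.eventually_mem isOpen_Ioo h0β) (hrev.eventually_mem isOpen_Ioo h0rev) ?_ ?_ ?_
    · have := hβ.ambQ_eq_one hk hb' (t := 0) ⟨le_rfl, hb'.le⟩
      rwa [hβ0] at this
    · rw [hdrev, ambQ_neg hzM htan]
      have := hα.ambQ_eq_one hk ha' (t := a) ⟨ha'.le, le_rfl⟩
      rwa [hαa] at this
    · have hmem : Set.Ioo (0 : ℝ) (min a b) ∈ 𝓝[>] (0 : ℝ) :=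
        Ioo_mem_nhdsGT (lt_min ha' hb')
      filter_upwards [hmem] with t ht
      have ht0 := ht.1
      have hta : t < a := ht.2.trans_le (min_le_left _ _)
      have htb : t < b := ht.2.trans_le (min_le_right _ _)
      have hβt : β t ∈ 𝓜.carrier := hβ.mem_carrier ⟨ht0.le, htb.le⟩
      have hαt : α (a - t) ∈ 𝓜.carrier := hα.mem_carrier ⟨by linarith, by linarith⟩
      have e1 : hdist 𝓜 h (β t) z = t := by
        have := hβd t ⟨ht0.le, htb.le⟩ 0 ⟨le_rfl, hb'.le⟩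
        rw [hβ0] at this
        rw [this, sub_zero, abs_of_pos ht0]
      have e2 : hdist 𝓜 h z (α (a - t)) = t := by
        have := hαd a ⟨ha'.le, le_rfl⟩ (a - t) ⟨by linarith, by linarith⟩
        rw [hαa] at this
        rw [this]
        have : a - (a - t) = t := by ring
        rw [this, abs_of_pos ht0]
      have e3 : hdist 𝓜 h x (α (a - t)) = a - t := by
        have := hαd 0 ⟨le_rfl, ha'.le⟩ (a - t) ⟨by linarith, by linarith⟩
        rw [hα0] at this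
        rw [this, zero_sub, abs_neg, abs_of_pos (by linarith)]
      have e4 : hdist 𝓜 h (β t) y = b - t := by
        have := hβd t ⟨ht0.le, htb.le⟩ b ⟨hb'.le, le_rfl⟩
        rw [hβb] at this
        rw [this, abs_sub_comm, abs_of_pos (by linarith)]
      have e5 : hdist 𝓜 h x y = l := by
        have := hσd 0 ⟨le_rfl, hl0.le⟩ l ⟨hl0.le, le_rfl⟩
        rw [hσ0, hσl] at this
        rw [this, zero_sub, abs_neg, abs_of_pos hl0]
      have u1 := hdist_triangle hm hconn hβt hzM hαt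
      have u2 := hdist_triangle hm hconn hxM hαt hyM
      have u3 := hdist_triangle hm hconn hαt hβt hyM
      rw [hdist_comm hm (α (a - t)) (β t)] at u3
      show hdist 𝓜 h (β t) (α (a - t)) = 2 * t
      linarith
  rw [hdrev, neg_neg] at hcorner
  -- glue
  have hshift := hβg.shift (-a)
  have haβ : a ∈ Set.Ioo (-εβ - -a) (b + εβ - -a) := ⟨by linarith, by linarith⟩
  have hdshift : deriv (fun t => β (t + -a)) a = deriv β 0 := by
    have := deriv_comp_add_const (f := β) (-a) a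
    simpa using this
  obtain ⟨σ', hσ'g, hσ'α, hσ'β⟩ := hαg.glue hk hshift haα haβ (by simp [hαa, hβ0])
    (by rw [hdshift, hcorner])
  set ε := min εσ (min εα εβ) with hε
  have hε0 : 0 < ε := lt_min hεσ (lt_min hεα hεβ)
  have hε1 : ε ≤ εσ := min_le_left _ _
  have hε2 : ε ≤ εα := (min_le_right _ _).trans (min_le_left _ _)
  have hε3 : ε ≤ εβ := (min_le_right _ _).trans (min_le_right _ _)
  have hσ'g' : IsGeodesic 𝓜 h σ' (Set.Ioo (-ε) (l + ε)) := by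
    refine hσ'g.mono fun t ht => ⟨?_, ?_⟩
    · exact (min_le_left _ _).trans_lt (by linarith [ht.1])
    · exact lt_of_lt_of_le (by linarith [ht.2]) (le_max_right _ _)
  have hσg' : IsGeodesic 𝓜 h σ (Set.Ioo (-ε) (l + ε)) :=
    hσg.mono fun t ht => ⟨by linarith [ht.1], by linarith [ht.2]⟩
  have hσ'0 : σ' 0 = x := by rw [hσ'α h0α, hα0]
  have hσ'l : σ' l = y := by
    have hlβ : l ∈ Set.Ioo (-εβ - -a) (b + εβ - -a) := ⟨by linarith, by linarith⟩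
    rw [hσ'β hlβ]
    show β (l + -a) = y
    have : l + -a = b := by linarith
    rw [this, hβb]
  have hdσ' : deriv σ' 0 = deriv α 0 := by
    apply Filter.EventuallyEq.deriv_eq
    filter_upwards [isOpen_Ioo.mem_nhds h0α] with t ht using hσ'α ht
  have hder : deriv σ 0 = deriv σ' 0 := by
    refine hN₂ x hx σ σ' l ε hε0 hl0 hl2 hσg' hσ'g' hσ0 hσ'0 ?_ ?_ (by rw [hσl, hσ'l])
    · have := hσ.ambQ_eq_one hk hl0 (t := 0) ⟨le_rfl, hl0.le⟩
      rwa [hσ0] at this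
    · rw [hdσ']
      have := hα.ambQ_eq_one hk ha' (t := 0) ⟨le_rfl, ha'.le⟩
      rwa [hα0] at this
  have heq := hσg'.eqOn hk hσ'g' (t₀ := 0) ⟨by linarith, by linarith⟩ (by rw [hσ0, hσ'0]) hder
  have haI : a ∈ Set.Ioo (-ε) (l + ε) := ⟨by linarith, by linarith⟩
  rw [heq haI, hσ'α haα, hαa]

/-- a metric segment is locally a minimizing geodesic. -/
theorem geod_segment_local (hk : IsKahler 𝓜 h) (hconn : IsConnected 𝓜.carrier)
    (hmem : ∀ s ∈ Set.Icc 0 l, γ s ∈ 𝓜.carrier)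
    (hd : ∀ s ∈ Set.Icc 0 l, ∀ t ∈ Set.Icc 0 l, hdist 𝓜 h (γ s) (γ t) = |s - t|) {t₀ : ℝ}
    (ht₀ : t₀ ∈ Set.Icc 0 l) :
    ∃ ρ > 0, ∀ s ∈ Set.Icc 0 l, ∀ t ∈ Set.Icc 0 l, s < t → |s - t₀| < ρ → |t - t₀| < ρ →
      ∃ σ : ℝ → V, IsMinGeod 𝓜 h σ (γ s) (γ t) (t - s) ∧ ∀ r ∈ Set.Icc s t, σ (r - s) = γ r := by
  have hp := hmem t₀ ht₀
  obtain ⟨ρ, hρ, hN₁, hN₂⟩ := geod_exists_normal hk hconn hp
  refine ⟨ρ, hρ, fun s hs t ht hst hsρ htρ => ?_⟩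
  have hsub : ∀ r ∈ Set.Icc s t, r ∈ Set.Icc 0 l := fun r hr => ⟨hs.1.trans hr.1, hr.2.trans ht.2⟩
  have hball : ∀ r ∈ Set.Icc s t, γ r ∈ hball 𝓜 h (γ t₀) ρ := by
    intro r hr
    refine ⟨hmem r (hsub r hr), ?_⟩
    rw [hd t₀ ht₀ r (hsub r hr)]
    rw [abs_lt] at *
    constructor <;> linarith [hr.1, hr.2]
  have hdd : ∀ r ∈ Set.Icc s t, ∀ r' ∈ Set.Icc s t, r ≤ r' → hdist 𝓜 h (γ r) (γ r') = r' - r := by
    intro r hr r' hr' hrr
    rw [hd r (hsub r hr) r' (hsub r' hr'), abs_sub_comm, abs_of_nonneg (sub_nonneg.2 hrr)]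
  have hsI : s ∈ Set.Icc s t := ⟨le_rfl, hst.le⟩
  have htI : t ∈ Set.Icc s t := ⟨hst.le, le_rfl⟩
  obtain ⟨σ, hσ⟩ := hN₁ (γ s) (hball s hsI) (γ t) (hball t htI)
  refine ⟨σ, by rw [← hdd s hsI t htI hst.le]; exact hσ, fun r hr => ?_⟩
  have := geod_between hk hconn hN₁ hN₂ hp (hball s hsI) (hball t htI) (hball r hr)
    (by rw [hdd s hsI r hr hr.1, hdd r hr t htI hr.2, hdd s hsI t htI hst.le]; ring) hσ
  rwa [hdd s hsI r hr hr.1] at this

/-- every metric segment is (the restriction of) a minimizing geodesic. -/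
theorem isMinGeod_of_metric_segment (hk : IsKahler 𝓜 h) (hconn : IsConnected 𝓜.carrier)
    (hl : 0 < l) (h0 : γ 0 = x) (h1 : γ l = y) (hmem : ∀ s ∈ Set.Icc 0 l, γ s ∈ 𝓜.carrier)
    (hd : ∀ s ∈ Set.Icc 0 l, ∀ t ∈ Set.Icc 0 l, hdist 𝓜 h (γ s) (γ t) = |s - t|) :
    ∃ γ' : ℝ → V, IsMinGeod 𝓜 h γ' x y l ∧ Set.EqOn γ γ' (Set.Icc 0 l) := by
  -- a local geodesic, shifted
  have key : ∀ s ∈ Set.Icc 0 l, ∀ t ∈ Set.Icc 0 l, s < t →
      (∃ σ : ℝ → V, IsMinGeod 𝓜 h σ (γ s) (γ t) (t - s) ∧ ∀ r ∈ Set.Icc s t, σ (r - s) = γ r) →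
      ∃ (σ : ℝ → V) (ε : ℝ), 0 < ε ∧ IsGeodesic 𝓜 h σ (Set.Ioo (s - ε) (t + ε)) ∧
        Set.EqOn σ γ (Set.Icc s t) := by
    rintro s hs t ht hst ⟨σ, ⟨⟨ε, hε, hg⟩, -⟩, hσ⟩
    refine ⟨fun r => σ (r + -s), ε, hε, (hg.shift (-s)).mono fun r hr => ?_, fun r hr => ?_⟩
    · exact ⟨by linarith [hr.1], by linarith [hr.2]⟩
    · show σ (r + -s) = γ r
      rw [← sub_eq_add_neg]
      exact hσ r hr
  -- the interior
  have hint : IsGeodesic 𝓜 h γ (Set.Ioo 0 l) := by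
    refine IsGeodesic.of_local fun t₀ ht₀ => ?_
    obtain ⟨ρ, hρ, H⟩ := geod_segment_local hk hconn hmem hd (Set.Ioo_subset_Icc_self ht₀)
    set δ := min (ρ / 2) (min t₀ (l - t₀)) with hδ
    have hδ0 : 0 < δ := lt_min (by linarith) (lt_min ht₀.1 (by linarith [ht₀.2]))
    have hδ1 : δ ≤ ρ / 2 := min_le_left _ _
    have hδ2 : δ ≤ t₀ := (min_le_right _ _).trans (min_le_left _ _)
    have hδ3 : δ ≤ l - t₀ := (min_le_right _ _).trans (min_le_right _ _)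
    have hs : t₀ - δ ∈ Set.Icc 0 l := ⟨by linarith, by linarith⟩
    have ht : t₀ + δ ∈ Set.Icc 0 l := ⟨by linarith, by linarith⟩
    obtain ⟨σ, ε, hε, hg, he⟩ := key _ hs _ ht (by linarith) (H _ hs _ ht (by linarith)
      (by rw [abs_lt]; constructor <;> linarith) (by rw [abs_lt]; constructor <;> linarith))
    refine ⟨Set.Ioo (t₀ - δ) (t₀ + δ), isOpen_Ioo, ⟨by linarith, by linarith⟩, ?_⟩
    refine (hg.mono fun r hr => ⟨by linarith [hr.1], by linarith [hr.2]⟩).congr fun r hr => ?_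
    exact (he (Set.Ioo_subset_Icc_self hr)).symm
  -- the left end
  obtain ⟨ρ₀, hρ₀, H₀⟩ := geod_segment_local hk hconn hmem hd (t₀ := 0) ⟨le_rfl, hl.le⟩
  set t := min l (ρ₀ / 2) with ht
  have ht0 : 0 < t := lt_min hl (by linarith)
  have htl : t ≤ l := min_le_left _ _
  have htρ : t ≤ ρ₀ / 2 := min_le_right _ _
  obtain ⟨σ₀, ε₀, hε₀, hg₀, he₀⟩ := key 0 ⟨le_rfl, hl.le⟩ t ⟨ht0.le, htl⟩ ht0
    (H₀ 0 ⟨le_rfl, hl.le⟩ t ⟨ht0.le, htl⟩ ht0 (by simpa using hρ₀)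
      (by rw [abs_lt]; constructor <;> linarith))
  obtain ⟨g₁, hg₁, hg₁σ, hg₁γ⟩ := hg₀.glue_of_eventuallyEq hk hint (t₀ := t / 2)
    ⟨by linarith, by linarith⟩ ⟨by linarith, by linarith⟩ (by
      filter_upwards [isOpen_Ioo.mem_nhds (show t / 2 ∈ Set.Ioo 0 t from
        ⟨by linarith, by linarith⟩)] with r hr using he₀ (Set.Ioo_subset_Icc_self hr))
  -- the right end
  obtain ⟨ρ₁, hρ₁, H₁⟩ := geod_segment_local hk hconn hmem hd (t₀ := l) ⟨hl.le, le_rfl⟩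
  set s := max 0 (l - ρ₁ / 2) with hs
  have hs0 : 0 ≤ s := le_max_left _ _
  have hsl : s < l := max_lt hl (by linarith)
  have hsρ : l - ρ₁ / 2 ≤ s := le_max_right _ _
  obtain ⟨σ₁, ε₁, hε₁, hgσ₁, he₁⟩ := key s ⟨hs0, hsl.le⟩ l ⟨hl.le, le_rfl⟩ hsl
    (H₁ s ⟨hs0, hsl.le⟩ l ⟨hl.le, le_rfl⟩ hsl (by rw [abs_lt]; constructor <;> linarith)
      (by simpa using hρ₁))
  have hmid : (s + l) / 2 ∈ Set.Ioo s l := ⟨by linarith, by linarith⟩
  have hmid0 : (s + l) / 2 ∈ Set.Ioo 0 l := ⟨by linarith [hmid.1], hmid.2⟩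
  obtain ⟨g₂, hg₂, hg₂g₁, hg₂σ⟩ := hg₁.glue_of_eventuallyEq hk hgσ₁ (t₀ := (s + l) / 2)
    ⟨lt_of_le_of_lt (min_le_right _ _) hmid0.1, lt_of_lt_of_le hmid0.2 (le_max_right _ _)⟩
    ⟨by linarith [hmid.1], by linarith [hmid.2]⟩ (by
      filter_upwards [isOpen_Ioo.mem_nhds hmid] with r hr
      rw [hg₁γ ⟨by linarith [hr.1], hr.2⟩, he₁ (Set.Ioo_subset_Icc_self hr)])
  have heq : Set.EqOn γ g₂ (Set.Icc 0 l) := by
    intro r hr
    rcases hr.2.eq_or_lt with hrl | hrl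
    · rw [hrl, hg₂σ ⟨by linarith, by linarith⟩, he₁ ⟨hsl.le, le_rfl⟩]
    have hr1 : r ∈ Set.Ioo (min (0 - ε₀) 0) (max (t + ε₀) l) :=
      ⟨lt_of_le_of_lt (min_le_left _ _) (by linarith [hr.1]), lt_of_lt_of_le hrl (le_max_right _ _)⟩
    rw [hg₂g₁ hr1]
    rcases hr.1.eq_or_lt with hr0 | hr0
    · rw [← hr0, hg₁σ ⟨by linarith, by linarith⟩, he₀ ⟨le_rfl, ht0.le⟩]
    · rw [hg₁γ ⟨hr0, hrl⟩]
  have h0I : (0 : ℝ) ∈ Set.Icc 0 l := ⟨le_rfl, hl.le⟩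
  have hlI : l ∈ Set.Icc 0 l := ⟨hl.le, le_rfl⟩
  refine ⟨g₂, ⟨⟨min ε₀ ε₁, lt_min hε₀ hε₁, hg₂.mono fun r hr => ⟨?_, ?_⟩⟩, ?_, ?_, ?_, ?_⟩, heq⟩
  · refine lt_of_le_of_lt ((min_le_left _ _).trans (min_le_left _ _)) ?_
    have := min_le_left ε₀ ε₁
    linarith [hr.1]
  · refine lt_of_lt_of_le ?_ (le_max_right _ _)
    have := min_le_right ε₀ ε₁
    linarith [hr.2]
  · rw [← heq h0I, h0]
  · rw [← heq hlI, h1]
  · rw [← h0, ← h1, hd 0 h0I l hlI, zero_sub, abs_neg, abs_of_pos hl]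
  · intro a ha b hb
    rw [← heq ha, ← heq hb, hd a ha b hb]

/-- **Hopf-Rinow**, local form: if the closed ball of radius `d(x,y)` about `x` is compact, then `x` and `y` are joined by a
minimizing unit speed geodesic. -/
theorem exists_minGeod (hk : IsKahler 𝓜 h) (hconn : IsConnected 𝓜.carrier) (hx : x ∈ 𝓜.carrier)
    (hy : y ∈ 𝓜.carrier) (hc : IsCompact (hcball 𝓜 h x (hdist 𝓜 h x y))) :
    ∃ γ : ℝ → V, IsMinGeod 𝓜 h γ x y (hdist 𝓜 h x y) := by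
  have hm := hk.toIsMetric
  rcases (hdist_nonneg 𝓜 h x y).eq_or_lt with h0 | h0
  · have hxy : x = y := (hdist_eq_zero_iff hm hconn hx hy).1 h0.symm
    subst hxy
    rw [← h0]
    exact exists_minGeod_self hk hx
  · obtain ⟨γ, hγ0, hγl, hmem, hd⟩ := exists_metric_segment hm hconn hx hy hc
    obtain ⟨γ', hγ', -⟩ := isMinGeod_of_metric_segment hk hconn h0 hγ0 hγl hmem hd
    exact ⟨γ', hγ'⟩

theorem exists_minGeod_of_proper (hk : IsKahler 𝓜 h) (hconn : IsConnected 𝓜.carrier)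
    (hp : IsProperMetric 𝓜 h) (hx : x ∈ 𝓜.carrier) (hy : y ∈ 𝓜.carrier) :
    ∃ γ : ℝ → V, IsMinGeod 𝓜 h γ x y (hdist 𝓜 h x y) :=
  exists_minGeod hk hconn hx hy (hp x hx _)

/-! ### `G4-RAY` -/

/-- metric rays (no geodesics: only `BP-G0`). -/
theorem geod_exists_metric_ray (hm : IsMetric 𝓜 h) (hconn : IsConnected 𝓜.carrier)
    (hp : IsProperMetric 𝓜 h) (hnc : ¬ IsCompact 𝓜.carrier) (ho : o ∈ 𝓜.carrier) :
    ∃ γ : ℝ → V, γ 0 = o ∧ (∀ s ∈ Set.Ici (0 : ℝ), γ s ∈ 𝓜.carrier) ∧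
      ∀ s ∈ Set.Ici (0 : ℝ), ∀ t ∈ Set.Ici (0 : ℝ), hdist 𝓜 h (γ s) (γ t) = |s - t| := by
  classical
  have hseg : ∀ n : ℕ, ∃ γ : ℝ → V, γ 0 = o ∧ (∀ s ∈ Set.Icc (0 : ℝ) n, γ s ∈ 𝓜.carrier) ∧
      ∀ s ∈ Set.Icc (0 : ℝ) n, ∀ t ∈ Set.Icc (0 : ℝ) n, hdist 𝓜 h (γ s) (γ t) = |s - t| := by
    intro n
    obtain ⟨y, hy, hyd⟩ := exists_hdist_eq hm hconn hp hnc ho (R := n) (Nat.cast_nonneg n)
    obtain ⟨γ, h0, -, hmem, hd⟩ := exists_metric_segment hm hconn ho hy (hp o ho _)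
    rw [hyd] at hmem hd
    exact ⟨γ, h0, hmem, hd⟩
  choose G hG0 hGmem hGd using hseg
  let 𝒰 : Ultrafilter ℕ := Filter.hyperfilter ℕ
  have hev : ∀ t : ℝ, ∀ᶠ n : ℕ in (𝒰 : Filter ℕ), t ≤ n := by
    intro t
    have h1 : ∀ᶠ n : ℕ in Filter.atTop, t ≤ n := tendsto_natCast_atTop_atTop.eventually_ge_atTop t
    exact Nat.hyperfilter_le_atTop h1
  have hlim : ∀ t ∈ Set.Ici (0 : ℝ), ∃ z ∈ hcball 𝓜 h o t,
      Filter.Tendsto (fun n => G n t) (𝒰 : Filter ℕ) (𝓝 z) := by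
    intro t ht
    have ht' : (0 : ℝ) ≤ t := ht
    have hmemU : ∀ᶠ n in (𝒰 : Filter ℕ), G n t ∈ hcball 𝓜 h o t := by
      filter_upwards [hev t] with n hn
      refine ⟨hGmem n t ⟨ht', hn⟩, ?_⟩
      have := hGd n 0 ⟨le_rfl, ht'.trans hn⟩ t ⟨ht', hn⟩
      rw [hG0] at this
      rw [this, zero_sub, abs_neg, abs_of_nonneg ht']
    obtain ⟨z, hz, hle⟩ := (hp o ho t).ultrafilter_le_nhds (𝒰.map (fun n => G n t))
      (by
        rw [Filter.le_principal_iff]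
        exact hmemU)
    exact ⟨z, hz, hle⟩
  choose! g hgmem hglim using hlim
  refine ⟨g, ?_, fun s hs => (hgmem s hs).1, ?_⟩
  · have h1 := hglim 0 (Set.mem_Ici.2 le_rfl)
    have h2 : Filter.Tendsto (fun n => G n 0) (𝒰 : Filter ℕ) (𝓝 o) := by
      simp only [hG0]
      exact tendsto_const_nhds
    exact tendsto_nhds_unique h1 h2
  · intro s hs t ht
    have hc := continuousOn_hdist hm hconn (g s, g t) ⟨(hgmem s hs).1, (hgmem t ht).1⟩
    have h1 : Filter.Tendsto (fun n => (G n s, G n t)) (𝒰 : Filter ℕ)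
        (𝓝[𝓜.carrier ×ˢ 𝓜.carrier] (g s, g t)) := by
      refine tendsto_nhdsWithin_iff.2 ⟨(hglim s hs).prodMk_nhds (hglim t ht), ?_⟩
      filter_upwards [hev s, hev t] with n hn1 hn2
      exact ⟨hGmem n s ⟨hs, hn1⟩, hGmem n t ⟨ht, hn2⟩⟩
    have h2 := hc.tendsto.comp h1
    have h3 : Filter.Tendsto (fun n => hdist 𝓜 h (G n s) (G n t)) (𝒰 : Filter ℕ) (𝓝 |s - t|) := by
      refine tendsto_const_nhds.congr' ?_
      filter_upwards [hev s, hev t] with n hn1 hn2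
      exact (hGd n s ⟨hs, hn1⟩ t ⟨ht, hn2⟩).symm
    exact tendsto_nhds_unique h2 h3

/-- **rays**: noncompact + proper. -/
theorem exists_ray (hk : IsKahler 𝓜 h) (hconn : IsConnected 𝓜.carrier) (hp : IsProperMetric 𝓜 h)
    (hnc : ¬ IsCompact 𝓜.carrier) (ho : o ∈ 𝓜.carrier) : ∃ γ : ℝ → V, IsRay 𝓜 h γ o := by
  have hm := hk.toIsMetric
  obtain ⟨γ, hγ0, hmem, hd⟩ := geod_exists_metric_ray hm hconn hp hnc ho
  have key : ∀ L : ℝ, 0 < L → ∃ γ' : ℝ → V, IsMinGeod 𝓜 h γ' o (γ L) L ∧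
      Set.EqOn γ γ' (Set.Icc 0 L) := fun L hL =>
    isMinGeod_of_metric_segment hk hconn hL hγ0 rfl (fun s hs => hmem s hs.1)
      (fun s hs t ht => hd s hs.1 t ht.1)
  have hint : IsGeodesic 𝓜 h γ (Set.Ioi 0) := by
    refine IsGeodesic.of_local fun t₀ ht₀ => ?_
    have ht₀' : 0 < t₀ := ht₀
    obtain ⟨γ', ⟨⟨ε, hε, hg⟩, -⟩, he⟩ := key (t₀ + 1) (by linarith)
    refine ⟨Set.Ioo 0 (t₀ + 1), isOpen_Ioo, ⟨ht₀', by linarith⟩,
      (hg.mono fun r hr => ⟨by linarith [hr.1], by linarith [hr.2]⟩).congr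
        fun r hr => he (Set.Ioo_subset_Icc_self hr)⟩
  obtain ⟨γ₁, ⟨⟨ε, hε, hg⟩, -⟩, he⟩ := key 1 one_pos
  have hσ : ∀ s, 0 ≤ s → (if s ≤ 0 then γ₁ s else γ s) = γ s := by
    intro s hs
    split_ifs with h0
    · have : s = 0 := le_antisymm h0 hs
      rw [this]
      exact (he ⟨le_rfl, zero_le_one⟩).symm
    · rfl
  refine ⟨fun t => if t ≤ 0 then γ₁ t else γ t, ⟨ε, hε, ?_⟩, ?_, ?_⟩
  · have h1 : IsGeodesic 𝓜 h (fun t => if t ≤ 0 then γ₁ t else γ t) (Set.Ioo (-ε) 1) := by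
      refine (hg.mono fun r hr => ⟨hr.1, by linarith [hr.2]⟩).congr fun r hr => ?_
      show (if r ≤ 0 then γ₁ r else γ r) = γ₁ r
      split_ifs with h0
      · rfl
      · exact he ⟨(not_le.1 h0).le, hr.2.le⟩
    have h2 : IsGeodesic 𝓜 h (fun t => if t ≤ 0 then γ₁ t else γ t) (Set.Ioi 0) :=
      hint.congr fun r hr => if_neg (not_le.2 hr)
    refine (IsGeodesic.union isOpen_Ioo isOpen_Ioi h1 h2).mono fun r hr => ?_
    by_cases hr1 : r < 1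
    · exact Or.inl ⟨hr, hr1⟩
    · exact Or.inr (lt_of_lt_of_le one_pos (not_lt.1 hr1))
  · show (if (0 : ℝ) ≤ 0 then γ₁ 0 else γ 0) = o
    rw [hσ 0 le_rfl, hγ0]
  · intro s hs t ht
    show hdist 𝓜 h (if s ≤ 0 then γ₁ s else γ s) (if t ≤ 0 then γ₁ t else γ t) = _
    rw [hσ s hs, hσ t ht, hd s hs t ht]

/-! ### `G4-EXIT` -/

/-- **exit segments** (charts.tex, proof of completeness of `h_t`): `D = 𝓜.carrier ∩ O` relatively compact, `o ∈ D`, `D ≠ M`: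
there is a point `y ∉ O` of least distance from `o`, joined to `o` by a minimizing geodesic which stays in the
closure of `D`. -/
theorem exists_exit_segment (hk : IsKahler 𝓜 h) (hconn : IsConnected 𝓜.carrier) {O K : Set V}
    (hO : IsOpen O) (hK : IsCompact K) (hKM : K ⊆ 𝓜.carrier) (hOK : 𝓜.carrier ∩ O ⊆ K)
    (ho : o ∈ 𝓜.carrier ∩ O) (hne : ∃ p ∈ 𝓜.carrier, p ∉ O) :
    ∃ (y : V) (γ : ℝ → V), y ∈ 𝓜.carrier ∧ y ∉ O ∧
      (∀ p ∈ 𝓜.carrier, p ∉ O → hdist 𝓜 h o y ≤ hdist 𝓜 h o p) ∧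
      IsMinGeod 𝓜 h γ o y (hdist 𝓜 h o y) ∧ ∀ t ∈ Set.Ico 0 (hdist 𝓜 h o y), γ t ∈ O := by
  have hm := hk.toIsMetric
  have hoM := ho.1
  have hF : IsCompact (K \ O) := hK.diff hO
  have hFM : K \ O ⊆ 𝓜.carrier := fun q hq => hKM hq.1
  have hcl : closure (𝓜.carrier ∩ O) ⊆ K := closure_minimal hOK hK.isClosed
  have hbd : ∀ p ∈ 𝓜.carrier, p ∉ O → ∀ ε > 0, ∃ q ∈ K \ O,
      hdist 𝓜 h o q + hdist 𝓜 h q p ≤ hdist 𝓜 h o p + ε := by
    intro p hp hpO ε hε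
    obtain ⟨q, hq, hqO, hqc, hle⟩ := exists_boundary_point hm hconn hO ho hp hpO hε
    exact ⟨q, ⟨hcl hqc, hqO⟩, hle⟩
  obtain ⟨p₀, hp₀, hp₀O⟩ := hne
  have hFne : (K \ O).Nonempty := by
    obtain ⟨q, hq, -⟩ := hbd p₀ hp₀ hp₀O 1 one_pos
    exact ⟨q, hq⟩
  obtain ⟨y, hyF, hymin⟩ := exists_hdist_eq_iInf hm hconn hoM hF hFM hFne
  have hmin : ∀ p ∈ 𝓜.carrier, p ∉ O → hdist 𝓜 h o y ≤ hdist 𝓜 h o p := by
    intro p hp hpO
    refine le_of_forall_pos_le_add fun ε hε => ?_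
    obtain ⟨q, hq, hle⟩ := hbd p hp hpO ε hε
    have h1 := hymin q hq
    have h2 := hdist_nonneg 𝓜 h q p
    linarith
  have hsub : hcball 𝓜 h o (hdist 𝓜 h o y) ⊆ K := by
    intro z hz
    by_cases hzO : z ∈ O
    · exact hOK ⟨hz.1, hzO⟩
    · have hzc : z ∈ closure (K \ O) := by
        rw [mem_closure_iff_nhds]
        intro W hW
        have hW' : W ∈ 𝓝[𝓜.carrier] z := mem_nhdsWithin_of_mem_nhds hW
        obtain ⟨r, hr, hrW⟩ := (hasBasis_nhdsWithin_hball hm hconn hz.1).mem_iff.1 hW'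
        obtain ⟨q, hq, hle⟩ := hbd z hz.1 hzO (r / 2) (by linarith)
        refine ⟨q, hrW ⟨hFM hq, ?_⟩, hq⟩
        have h1 := hymin q hq
        have h2 := hz.2
        rw [hdist_comm hm z q]
        linarith
      rw [hF.isClosed.closure_eq] at hzc
      exact hzc.1
  obtain ⟨C, hC, hCeq⟩ := exists_isClosed_hcball hm hconn hoM (hdist 𝓜 h o y)
  have hcomp : IsCompact (hcball 𝓜 h o (hdist 𝓜 h o y)) :=
    g0_isCompact_of_subset hK hC hCeq hKM hsub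
  obtain ⟨γ, hγ⟩ := exists_minGeod hk hconn hoM (hFM hyF) hcomp
  refine ⟨y, γ, hFM hyF, hyF.2, hmin, hγ, fun t ht => ?_⟩
  by_contra htO
  have h1 := hmin (γ t) (hγ.mem_carrier ⟨ht.1, ht.2.le⟩) htO
  have h2 := hγ.2.2.2.2 0 ⟨le_rfl, ht.1.trans ht.2.le⟩ t ⟨ht.1, ht.2.le⟩
  rw [hγ.2.1, zero_sub, abs_neg, abs_of_nonneg ht.1] at h2
  linarith [ht.2]

end Claimed.Agent.R316
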