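import Claimed.Agent.R316.Pack015_2
import Claimed.Agent.R316.Base.Metric.Api
import Claimed.Agent.R316.Pack011

/-!
# Row 316 base layer, `BP-G4`, leaf `G4-AMB`: the ambient tensors `ambJ`, `ambD`, `ambBisec` in an arbitrary parametrisation

Sub-captain of `BP-G4`: helper256.  Statements: helper97 (export file `Api.lean`, section 1), verbatim.
STATUS: this file is sorry-free (proved from the imported statements).

RECIPE.  Notation: `x = Φ z`, `Ψ = 𝓜.pΦ x`, `W = 𝓜.pU x`, `w = 𝓜.co x`, `τ = invFunOn Ψ W ∘ Φ`, `z ∈ U ∩ Φ ⁻¹' (Ψ '' W)` (`CMfd.mem_image_pΦ`), `τ z = w` (`CMfd.trans_eq`/`IsParam.invFunOn_eq_iff` with `CMfd.pΦ_co`, `CMfd.co_mem`).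
* `g0_coVec_param` : `coVec Ψ w (dΦ_z a) = fderiv ℂ τ z a`.
* `ambJ_param`: `dΨ_w (I • fderiv ℂ τ z a) = dΨ_w (fderiv ℂ τ z (I • a))` (`map_smul`), and `dΨ_{τ z} (fderiv ℂ τ z b) = dΦ_z b` (`CMfd.fderiv_eq_comp_trans`, or: apply `g0_coVec_param` to `I • a` and `g0_tangent_iff` to the tangent vector `dΦ_z (I • a)`, `CMfd.tangent_eq`).
* `ambD_param`: `u ∘ Φ = (u ∘ Ψ) ∘ τ` near `z` (`CMfd.eventually_comp_eq`); `u ∘ Ψ = (u ∘ Φ) ∘ τ'` near `w` with the inverse transition `τ'`, so `u ∘ Ψ` is differentiable at `w` (`CMfd.trans_hasFDerivAt_real`, `CMfd.trans_leftInv`); chain rule.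
* `ambBisec_param`: `bisec_trans` (`CM/Curv.lean`) + `jac τ z *ᵥ a = fderiv ℂ τ z a` (definition of `jac`; see how `ambQ_param`/`ambB_param` are proved in `Metric/Norm.lean`).
* `exists_ambBisec_lower`: `K = ∅`: `c = 1`.  Otherwise `CMfd.exists_finite_cover`: `K ⊆ ⋃ Φ i '' ball 0 (r i)`, `Φ i` holomorphic on `ball 0 (2 r i)`.  For one `i`: the function `(z, a, b) ↦ bisec h Φ z a b` is continuous on `closedBall 0 r × CE ι × CE ι`
  (`bisec_eq_sum_dot`: polynomial in `a, b` with coefficients `RmM (h Φ) z`, which are smooth on the domain: `IsMetric`/`IsHForm.smooth` + the smoothness lemmas of `CM/Curv.lean`), positive on the compact set `closedBall 0 r × S × S`, `S` the Euclidean unit sphere (`BisecPos`);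
  minimum `m > 0` (`IsCompact.exists_isMinOn`), `qf (h Φ z) a ≤ C² ‖a‖²` (`g0_uniform_bounds`); homogeneity `bisec_smul`: `bisec z a b ≥ m ‖a‖² ‖b‖² ≥ (m / C⁴) qf a qf b`.  `c := min_i`.  Transfer with `ambBisec_param`, `ambQ_param`, `CMfd.tangent_eq`.
  (`CM/StdMetric.lean`, `exists_bisec_lower` of helper84 is the same statement in chart form: whoever proves one of them first should derive the other one from it.)
-/

set_option autoImplicit false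
set_option linter.unusedSectionVars false
set_option linter.unusedVariables false
open scoped ContDiff ComplexOrder Topology

namespace Claimed.Agent.R316

variable {V : Type} [NormedAddCommGroup V] [NormedSpace ℝ V] [FiniteDimensional ℝ V]
variable {ι : Type} [Fintype ι] [DecidableEq ι]
variable {𝓜 : CMfd V ι} {h : HFam V ι}
variable {Φ : CE ι → V} {U : Set (CE ι)}

theorem ambJ_param (hΦ : 𝓜.IsHol Φ U) {z : CE ι} (hz : z ∈ U) (a : CE ι) :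
    ambJ 𝓜 (Φ z) (fderiv ℝ Φ z a) = fderiv ℝ Φ z (Complex.I • a) := by
  have hx : Φ z ∈ 𝓜.carrier := CMfd.mem_carrier hΦ hz
  have ht : fderiv ℝ Φ z (Complex.I • a) ∈ 𝓜.tangent (Φ z) := by
    rw [CMfd.tangent_eq hΦ hz]
    exact ⟨_, rfl⟩
  unfold ambJ
  rw [g0_coVec_param hΦ hz, ← map_smul, ← g0_coVec_param hΦ hz]
  exact (g0_tangent_iff hx).1 ht

theorem ambD_param (hΦ : 𝓜.IsHol Φ U) {z : CE ι} (hz : z ∈ U) {u : V → ℝ}
    (hu : DifferentiableAt ℝ (u ∘ Φ) z) (a : CE ι) :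
    ambD 𝓜 u (Φ z) (fderiv ℝ Φ z a) = fderiv ℝ (u ∘ Φ) z a := by
  have hx : Φ z ∈ 𝓜.carrier := CMfd.mem_carrier hΦ hz
  have hΨ := 𝓜.isHol_pΦ hx
  have hw := 𝓜.co_mem hx
  have hΨw := 𝓜.pΦ_co hx
  have hz' : z ∈ U ∩ Φ ⁻¹' (𝓜.pΦ (Φ z) '' 𝓜.pU (Φ z)) := ⟨hz, 𝓜.mem_image_pΦ hx⟩
  have hw' : 𝓜.co (Φ z) ∈ 𝓜.pU (Φ z) ∩ 𝓜.pΦ (Φ z) ⁻¹' (Φ '' U) := ⟨hw, z, hz, hΨw.symm⟩
  have hτz : (Function.invFunOn (𝓜.pΦ (Φ z)) (𝓜.pU (Φ z)) ∘ Φ) z = 𝓜.co (Φ z) :=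
    CMfd.trans_eq hΦ hΨ hw hΨw.symm
  have hτ'w : (Function.invFunOn Φ U ∘ 𝓜.pΦ (Φ z)) (𝓜.co (Φ z)) = z := CMfd.trans_eq hΨ hΦ hz hΨw
  have hdΨ : DifferentiableAt ℝ (u ∘ 𝓜.pΦ (Φ z)) (𝓜.co (Φ z)) := by
    have h1 : DifferentiableAt ℝ ((u ∘ Φ) ∘ (Function.invFunOn Φ U ∘ 𝓜.pΦ (Φ z))) (𝓜.co (Φ z)) :=
      DifferentiableAt.comp _ (by rw [hτ'w]; exact hu)
        (CMfd.trans_hasFDerivAt_real hΨ hΦ hw').differentiableAt
    exact (CMfd.eventually_comp_eq u hΨ hΦ hw').differentiableAt_iff.2 h1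
  unfold ambD
  rw [g0_coVec_param hΦ hz, (CMfd.eventually_comp_eq u hΦ hΨ hz').fderiv_eq]
  have h2 : HasFDerivAt ((u ∘ 𝓜.pΦ (Φ z)) ∘ (Function.invFunOn (𝓜.pΦ (Φ z)) (𝓜.pU (Φ z)) ∘ Φ))
      ((fderiv ℝ (u ∘ 𝓜.pΦ (Φ z)) (𝓜.co (Φ z))).comp
        ((fderiv ℂ (Function.invFunOn (𝓜.pΦ (Φ z)) (𝓜.pU (Φ z)) ∘ Φ) z).restrictScalars ℝ)) z :=
    HasFDerivAt.comp z (by rw [hτz]; exact hdΨ.hasFDerivAt) (CMfd.trans_hasFDerivAt_real hΦ hΨ hz')
  rw [h2.fderiv]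
  rfl

theorem ambBisec_param (hk : IsKahler 𝓜 h) (hΦ : 𝓜.IsHol Φ U) {z : CE ι} (hz : z ∈ U) (a b : CE ι) :
    ambBisec 𝓜 h (Φ z) (fderiv ℝ Φ z a) (fderiv ℝ Φ z b) = bisec h Φ z a b := by
  have hx : Φ z ∈ 𝓜.carrier := CMfd.mem_carrier hΦ hz
  have hΨ := 𝓜.isHol_pΦ hx
  have hz' : z ∈ U ∩ Φ ⁻¹' (𝓜.pΦ (Φ z) '' 𝓜.pU (Φ z)) := ⟨hz, 𝓜.mem_image_pΦ hx⟩
  have hτz : (Function.invFunOn (𝓜.pΦ (Φ z)) (𝓜.pU (Φ z)) ∘ Φ) z = 𝓜.co (Φ z) :=
    CMfd.trans_eq hΦ hΨ (𝓜.co_mem hx) (𝓜.pΦ_co hx).symm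
  unfold ambBisec
  rw [g0_coVec_param hΦ hz, g0_coVec_param hΦ hz, bisec_trans hk.toIsMetric hΦ hΨ hz', hτz]
  congr 1
  · exact (funext fun k => jac_mulVec _ a k).symm
  · exact (funext fun k => jac_mulVec _ b k).symm

/-- a finite family of positive numbers has a positive lower bound. -/
theorem amb_exists_pos_le {m : ℕ} (d : Fin m → ℝ) (hd : ∀ i, 0 < d i) : ∃ δ > 0, ∀ i, δ ≤ d i := by
  rcases isEmpty_or_nonempty (Fin m) with hE | hN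
  · exact ⟨1, one_pos, fun i => isEmptyElim i⟩
  · refine ⟨Finset.univ.inf' Finset.univ_nonempty d, ?_, fun i => Finset.inf'_le _ (Finset.mem_univ i)⟩
    exact (Finset.lt_inf'_iff _).2 fun i _ => hd i

/-- `bisec` vanishes if one of the vectors vanishes. -/
theorem amb_bisec_zero_left (h : HFam V ι) (Φ : CE ι → V) (z : CE ι) (w : ι → ℂ) :
    bisec h Φ z 0 w = 0 := by
  have := bisec_smul h Φ z 0 1 (0 : ι → ℂ) w
  simpa using this

theorem amb_bisec_zero_right (h : HFam V ι) (Φ : CE ι → V) (z : CE ι) (v : ι → ℂ) :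
    bisec h Φ z v 0 = 0 := by
  have := bisec_smul h Φ z 1 0 v (0 : ι → ℂ)
  simpa using this

/-- joint continuity of the bisectional curvature. -/
theorem amb_continuousOn_bisec (hm : IsMetric 𝓜 h) (hΦ : 𝓜.IsHol Φ U) :
    ContinuousOn (fun p : CE ι × CE ι × CE ι => bisec h Φ p.1 p.2.1 p.2.2)
      (U ×ˢ (Set.univ : Set (CE ι × CE ι))) := by
  unfold bisec
  refine Complex.continuous_re.comp_continuousOn ?_
  refine continuousOn_finsetSum _ fun j _ => continuousOn_finsetSum _ fun k _ =>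
    continuousOn_finsetSum _ fun l _ => continuousOn_finsetSum _ fun m _ => ?_
  have h1 : ContinuousOn (fun p : CE ι × CE ι × CE ι => Rm h Φ p.1 j k l m)
      (U ×ˢ (Set.univ : Set (CE ι × CE ι))) :=
    (contDiffOn_Rm hm hΦ j k l m).continuousOn.comp continuousOn_fst fun p hp => hp.1
  have h2 : ∀ i : ι, Continuous fun p : CE ι × CE ι × CE ι => (p.2.1 : ι → ℂ) i := fun i => by
    fun_prop
  have h3 : ∀ i : ι, Continuous fun p : CE ι × CE ι × CE ι => (p.2.2 : ι → ℂ) i := fun i => by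
    fun_prop
  exact (((h1.mul (h2 j).continuousOn).mul (continuous_star.comp (h2 k)).continuousOn).mul
    (h3 l).continuousOn).mul (continuous_star.comp (h3 m)).continuousOn

/-- uniform positivity of the bisectional curvature on a compact subset of one parametrisation. -/
theorem amb_bisec_lower_chart (hk : IsKahler 𝓜 h) (hb : BisecPos 𝓜 h) (hΦ : 𝓜.IsHol Φ U)
    {K' : Set (CE ι)} (hK' : IsCompact K') (hK'U : K' ⊆ U) :
    ∃ c : ℝ, 0 < c ∧ ∀ z ∈ K', ∀ a b : CE ι,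
      c * (qf (h Φ z) a * qf (h Φ z) b) ≤ bisec h Φ z a b := by
  have hm := hk.toIsMetric
  obtain ⟨c₀, C, hc₀, hC, Hb⟩ := g0_uniform_bounds hm hΦ hK' hK'U
  have hcomp : IsCompact (K' ×ˢ (Metric.sphere (0 : CE ι) 1 ×ˢ Metric.sphere (0 : CE ι) 1)) :=
    hK'.prod ((isCompact_sphere _ _).prod (isCompact_sphere _ _))
  have hcont := (amb_continuousOn_bisec hm hΦ).mono
    (show K' ×ˢ (Metric.sphere (0 : CE ι) 1 ×ˢ Metric.sphere (0 : CE ι) 1) ⊆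
      U ×ˢ (Set.univ : Set (CE ι × CE ι)) from fun p hp => ⟨hK'U hp.1, trivial⟩)
  -- a positive lower bound on the unit spheres
  obtain ⟨m, hm0, Hm⟩ : ∃ m : ℝ, 0 < m ∧ ∀ z ∈ K', ∀ a ∈ Metric.sphere (0 : CE ι) 1,
      ∀ b ∈ Metric.sphere (0 : CE ι) 1, m ≤ bisec h Φ z a b := by
    rcases (K' ×ˢ (Metric.sphere (0 : CE ι) 1 ×ˢ Metric.sphere (0 : CE ι) 1)).eq_empty_or_nonempty
      with hE | hNE
    · refine ⟨1, one_pos, fun z hz a ha b hb' => ?_⟩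
      have : (z, a, b) ∈ K' ×ˢ (Metric.sphere (0 : CE ι) 1 ×ˢ Metric.sphere (0 : CE ι) 1) :=
        ⟨hz, ha, hb'⟩
      rw [hE] at this
      exact absurd this (Set.notMem_empty _)
    · obtain ⟨p₀, hp₀, hmin⟩ := hcomp.exists_isMinOn hNE hcont
      have hne : ∀ a ∈ Metric.sphere (0 : CE ι) 1, (a : ι → ℂ) ≠ 0 := by
        intro a ha h0
        have : a = 0 := by
          ext k
          exact congrFun h0 k
        rw [this] at ha
        simp at ha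
      refine ⟨_, hb Φ U hΦ p₀.1 (hK'U hp₀.1) p₀.2.1 p₀.2.2 (hne _ hp₀.2.1) (hne _ hp₀.2.2),
        fun z hz a ha b hb' => ?_⟩
      exact isMinOn_iff.1 hmin (z, a, b) ⟨hz, ha, hb'⟩
  have hscale : ∀ a : CE ι, a ≠ 0 → (‖a‖⁻¹ • a) ∈ Metric.sphere (0 : CE ι) 1 ∧
      (a : ι → ℂ) = ((‖a‖ : ℝ) : ℂ) • ((‖a‖⁻¹ • a : CE ι) : ι → ℂ) := by
    intro a ha
    have hn : ‖a‖ ≠ 0 := norm_ne_zero_iff.2 ha
    constructor
    · rw [mem_sphere_zero_iff_norm, norm_smul, norm_inv, norm_norm, inv_mul_cancel₀ hn]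
    · funext k
      simp only [Pi.smul_apply, PiLp.smul_apply, smul_eq_mul, Complex.real_smul]
      rw [← mul_assoc, ← Complex.ofReal_mul, mul_inv_cancel₀ hn, Complex.ofReal_one, one_mul]
  refine ⟨m / C ^ 4, by positivity, fun z hz a b => ?_⟩
  by_cases ha : a = 0
  · subst ha
    have e1 : qf (h Φ z) ((0 : CE ι) : ι → ℂ) = 0 := qf_zero_vec _
    have e2 : bisec h Φ z ((0 : CE ι) : ι → ℂ) b = 0 := amb_bisec_zero_left h Φ z _
    rw [e1, e2]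
    simp
  by_cases hb0 : b = 0
  · subst hb0
    have e1 : qf (h Φ z) ((0 : CE ι) : ι → ℂ) = 0 := qf_zero_vec _
    have e2 : bisec h Φ z a ((0 : CE ι) : ι → ℂ) = 0 := amb_bisec_zero_right h Φ z _
    rw [e1, e2]
    simp
  obtain ⟨ha1, ha2⟩ := hscale a ha
  obtain ⟨hb1, hb2⟩ := hscale b hb0
  have h1 := Hm z hz _ ha1 _ hb1
  have h2 : bisec h Φ z a b = ‖a‖ ^ 2 * ‖b‖ ^ 2 *
      bisec h Φ z ((‖a‖⁻¹ • a : CE ι) : ι → ℂ) ((‖b‖⁻¹ • b : CE ι) : ι → ℂ) := by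
    conv_lhs => rw [ha2, hb2]
    rw [bisec_smul, Complex.norm_real, Complex.norm_real, norm_norm, norm_norm]
  have hqa := (Hb z hz a).2
  have hqb := (Hb z hz b).2
  have hqa0 : 0 ≤ qf (h Φ z) a := qf_nonneg (hm.posDef hΦ z (hK'U hz)).posSemidef _
  have hqb0 : 0 ≤ qf (h Φ z) b := qf_nonneg (hm.posDef hΦ z (hK'U hz)).posSemidef _
  rw [h2]
  have h3 : qf (h Φ z) a * qf (h Φ z) b ≤ C ^ 4 * (‖a‖ ^ 2 * ‖b‖ ^ 2) := by
    calc qf (h Φ z) a * qf (h Φ z) b ≤ (C ^ 2 * ‖a‖ ^ 2) * (C ^ 2 * ‖b‖ ^ 2) :=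
          mul_le_mul hqa hqb hqb0 (by positivity)
      _ = C ^ 4 * (‖a‖ ^ 2 * ‖b‖ ^ 2) := by ring
  calc m / C ^ 4 * (qf (h Φ z) a * qf (h Φ z) b)
      ≤ m / C ^ 4 * (C ^ 4 * (‖a‖ ^ 2 * ‖b‖ ^ 2)) := mul_le_mul_of_nonneg_left h3 (by positivity)
    _ = ‖a‖ ^ 2 * ‖b‖ ^ 2 * m := by field_simp
    _ ≤ _ := mul_le_mul_of_nonneg_left h1 (by positivity)

/-- uniform positivity of the bisectional curvature on compact sets. -/
theorem exists_ambBisec_lower (hk : IsKahler 𝓜 h) (hb : BisecPos 𝓜 h) {K : Set V} (hK : IsCompact K)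
    (hKM : K ⊆ 𝓜.carrier) : ∃ c : ℝ, 0 < c ∧ ∀ x ∈ K, ∀ a ∈ 𝓜.tangent x, ∀ b ∈ 𝓜.tangent x,
      c * (ambQ 𝓜 h x a * ambQ 𝓜 h x b) ≤ ambBisec 𝓜 h x a b := by
  have hm := hk.toIsMetric
  obtain ⟨m, Φ, r, hr, hΦ, hcov⟩ := 𝓜.exists_finite_cover hK hKM
  have hsub : ∀ i, Metric.closedBall (0 : CE ι) (r i) ⊆ Metric.ball 0 (2 * r i) := fun i =>
    Metric.closedBall_subset_ball (by linarith [hr i])
  choose d hd Hd using fun i =>
    amb_bisec_lower_chart hk hb (hΦ i) (isCompact_closedBall (0 : CE ι) (r i)) (hsub i)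
  obtain ⟨c, hc, hle⟩ := amb_exists_pos_le d hd
  refine ⟨c, hc, fun x hx a ha b hb' => ?_⟩
  obtain ⟨i, z, hz, rfl⟩ := Set.mem_iUnion.1 (hcov hx)
  have hz' := Metric.ball_subset_closedBall hz
  rw [CMfd.tangent_eq (hΦ i) (hsub i hz')] at ha hb'
  obtain ⟨α, rfl⟩ := ha
  obtain ⟨β, rfl⟩ := hb'
  rw [ambQ_param hk.toIsHForm (hΦ i) (hsub i hz'), ambQ_param hk.toIsHForm (hΦ i) (hsub i hz'),
    ambBisec_param hk (hΦ i) (hsub i hz')]
  have hqa0 : 0 ≤ qf (h (Φ i) z) α := qf_nonneg (hm.posDef (hΦ i) z (hsub i hz')).posSemidef _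
  have hqb0 : 0 ≤ qf (h (Φ i) z) β := qf_nonneg (hm.posDef (hΦ i) z (hsub i hz')).posSemidef _
  exact (mul_le_mul_of_nonneg_right (hle i) (mul_nonneg hqa0 hqb0)).trans (Hd i z hz' α β)

end Claimed.Agent.R316
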