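import Claimed.Agent.R316.Base.Geod.Uniq
import Claimed.Agent.R316.Base.Geod.Amb
import Claimed.Agent.R316.Pack016_2

/-!
# Row 316 base layer, `BP-G4`, leaves `G4-PAR-A/B/C`: parallel transport along geodesics (ambient form)

Sub-captain of `BP-G4`: helper256.  Statements of section 3 and of `exists_parallelAlong`, `IsParallelAlong.eqOn`: helper97 (export file `Api.lean`, section 4), verbatim.
STATUS: this file is sorry-free (proved from the imported statements).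
Chart level black boxes (`BP-G1`, helper294): `RGeo/Par.lean` (existence of a parallel field with a prescribed value on ANY open interval on which the curve is smooth with values in `S.U`; uniqueness; `G` of two parallel fields is constant; linearity),
`RGeo/Pull.lean` (`IsIsom.isParallel_iff`), `RGeo/Kahler.lean` (`kgeo_isRiem`, `isIsom_trans`, `matGeo_isParallel_I`), `RGeo/Cov.lean` (`covD_add`, `covD_const_smul`, `IsRiem.hasDerivAt_G`).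

In all statements the hypothesis `IsGeodesic 𝓜 h γ (Ioo a b)` is only used through: `γ` is smooth on the interval, with values in the carrier (exception: `IsGeodesic.isParallelAlong_deriv`).

RECIPE `G4-PAR-A` (section 1: the bridge to one chart).
* `congr`: in the chart clause `Φ (c t) = γ' t = γ t`; the two coordinate fields agree on the open set `I'`, so their `deriv` agree there (`Filter.EventuallyEq.deriv_eq`); `RGeo.covD` unfolds to `deriv Z t + Γ ..`.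
* `of_local`: as `IsGeodesic.of_local`.
* `gpar_contDiffOn_coVec`: near `t₀`: `IsParam.exists_smooth_leftInverse` gives `ρ` smooth on an open `O ∋ Φ (c t₀)` with `ρ ∘ Φ = id` near `c t₀`; differentiate: `dρ_{Φ z} ∘ dΦ_z = id` for `z` near `c t₀`, so `coVec Φ (c t) (E t) = dρ_{Φ (c t)} (E t)` for `E t ∈ range dΦ_{c t}`
  (write `E t = dΦ v`, `IsParam.coVec_fderiv`); `t ↦ fderiv ℝ ρ (Φ (c t)) (E t)` is smooth (`ContDiffOn.fderiv_of_isOpen`, `ContDiffAt.clm_apply`).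
* `IsParallelAlong.coord`: chart clause with `c = invFunOn Φ U ∘ γ`, `I' = I`; smoothness of `c`: `IsParam.contDiffAt_invFunOn_comp`; `E t ∈ 𝓜.tangent (γ t) = range dΦ_{c t}` (`CMfd.tangent_eq`).
* `isParallelAlong_of_isParallel`: smoothness: `ContDiffOn.fderiv_of_isOpen` for `Φ`, `clm_apply`.  Tangency: `CMfd.tangent_eq`.  Chart clause for `(Ψ, W, e, I')`: on `I'`: `e = τ ∘ c`, `τ = invFunOn Ψ W ∘ Φ` (`CMfd.trans_eq`), `c t ∈ U ∩ Φ ⁻¹' (Ψ '' W)`, and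
  `coVec Ψ (e t) (dΦ_{c t} (Z t)) = fderiv ℝ τ (c t) (Z t)` (`CMfd.coVec_trans` + `CMfd.trans_hasFDerivAt_real`: the real derivative is the restriction of scalars of the complex one).  `isIsom_trans` + `IsIsom.isParallel_iff` (the Riemannian structures: `kgeo_isRiem` for `Ψ` and for the restriction of `Φ` to the
  overlap (`CMfd.isHol` of a restriction: `𝓜.mono`-type lemma / `kgeo_restr`)); `IsParallel` does not see the domain `U` of `kgeo h Φ U` (`rfl`).  Then `congr` on the open set `I'`.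

RECIPE `G4-PAR-B` (section 2).
* `IsParallelAlong.eqOn`: `A = {t ∈ Ioo a b | E t = E' t}` is closed in `Ioo a b` (continuity) and open: near `t₁ ∈ A` take a chart interval (`geod_exists_chart_nhds`), the coordinate fields (`IsParallelAlong.coord`) are parallel with the same value at `t₁`, so they agree (uniqueness, `BP-G1`), and `E = dΦ Z`.
  `isPreconnected_Ioo`, `IsPreconnected.subset_of_closure_inter_subset` or a clopen argument in the subtype.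
* `gpar_exists_local`: chart interval `J` around `t₁`; `e = dΦ_{c t} v`; chart existence on `J`; `isParallelAlong_of_isParallel`; `IsParallelAlong.congr` (`Φ ∘ c = γ` on `J`).
* `IsParallelAlong.glue`: as `IsGeodesic.glue` (`F t := if t ∈ Ioo a b then E t else E' t`; `eqOn` on the overlap `Ioo (max a c) (min b d)`; `of_local`).
* `exists_parallelAlong`: `A := {t ∈ Ioo a b | ∃ c d, c < min t t₀ ∧ max t t₀ < d ∧ Ioo c d ⊆ Ioo a b ∧ ∃ E, IsParallelAlong γ E (Ioo c d) ∧ E t₀ = e}`.  `t₀ ∈ A` (`gpar_exists_local`); `A` is open (`Ioo c d ⊆ A`); `A` is closed in `Ioo a b`: for `t₁` in the closure take `J` from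
  `gpar_exists_local` at `t₁`, `t ∈ A ∩ J`, a field `E'` on `J` with `E' t = E t`, glue.  So `A = Ioo a b`.  Choose `(c_t, d_t, E_t)` and put `F t := E_t t`; `F = E_t` on `Ioo c_t d_t` by `eqOn` on `Ioo (max c_s c_t) (min d_s d_t) ∋ t₀, s`; `of_local`.

RECIPE `G4-PAR-C` (section 3): each statement is local (`of_local`, resp. locally constant function on the preconnected `Ioo a b` as in `IsGeodesic.ambQ_const`); on a chart interval use `coord`, the chart level fact, and `isParallelAlong_of_isParallel` + `congr`: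
* `ambB_const`: `ambB (γ t) (E t) (E' t) = G (c t) (Z t) (Z' t)` (`ambB_param`, `kgeo_G_apply`), constant by `BP-G1`.
* `ambJ`: `ambJ (γ t) (E t) = dΦ_{c t} (I • Z t)` (`ambJ_param`), `matGeo_isParallel_I`.
* `add`, `smul`: `dΦ (Z + Z') = E + E'`; `covD_add`, `covD_const_smul`.
* `isParallelAlong_deriv`: `IsGeodesic.coord`: `Z = deriv c`, `IsGeod` says `covD c (deriv c) = 0`; `deriv c` is smooth on the open interval (`ContDiffOn.deriv_of_isOpen`).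
-/

set_option autoImplicit false
set_option linter.unusedSectionVars false
set_option linter.unusedVariables false
open scoped ContDiff ComplexOrder Topology

namespace Claimed.Agent.R316

variable {V : Type} [NormedAddCommGroup V] [NormedSpace ℝ V] [FiniteDimensional ℝ V]
variable {ι : Type} [Fintype ι] [DecidableEq ι]
variable {𝓜 : CMfd V ι} {h : HFam V ι}
variable {γ γ' E E' : ℝ → V} {a b : ℝ} {I J : Set ℝ}
variable {Φ : CE ι → V} {U : Set (CE ι)}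

/-! ### 1. `G4-PAR-A`: locality, one chart -/

theorem IsParallelAlong.mono (hE : IsParallelAlong 𝓜 h γ E I) (hsub : J ⊆ I) :
    IsParallelAlong 𝓜 h γ E J :=
  ⟨hE.1.mono hsub, fun t ht => hE.2.1 t (hsub ht),
    fun Φ U hΦ c I' hI' hI'o hc => hE.2.2 Φ U hΦ c I' (hI'.trans hsub) hI'o hc⟩

theorem IsParallelAlong.congr (hE : IsParallelAlong 𝓜 h γ E I) (hγ : Set.EqOn γ' γ I)
    (he : Set.EqOn E' E I) : IsParallelAlong 𝓜 h γ' E' I := by
  refine ⟨hE.1.congr he, fun t ht => ?_, fun Φ U hΦ c I' hI' hI'o hc t ht => ?_⟩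
  · rw [he ht, hγ ht]
    exact hE.2.1 t ht
  · have h1 := hE.2.2 Φ U hΦ c I' hI' hI'o
      (fun s hs => ⟨(hc s hs).1, (hc s hs).2.trans (hγ (hI' hs))⟩) t ht
    have h2 : (fun s => coVec Φ (c s) (E' s)) =ᶠ[𝓝 t] fun s => coVec Φ (c s) (E s) := by
      filter_upwards [hI'o.mem_nhds ht] with s hs
      rw [he (hI' hs)]
    rw [← h1]
    simp only [RGeo.covD, h2.deriv_eq, h2.self_of_nhds]

theorem IsParallelAlong.of_local
    (H : ∀ t ∈ I, ∃ J : Set ℝ, IsOpen J ∧ t ∈ J ∧ IsParallelAlong 𝓜 h γ E J) :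
    IsParallelAlong 𝓜 h γ E I := by
  refine ⟨fun t ht => ?_, fun t ht => ?_, fun Φ U hΦ c I' hI' hI'o hc t ht => ?_⟩
  · obtain ⟨J, hJo, htJ, hJ⟩ := H t ht
    exact (hJ.1.contDiffAt (hJo.mem_nhds htJ)).contDiffWithinAt
  · obtain ⟨J, hJo, htJ, hJ⟩ := H t ht
    exact hJ.2.1 t htJ
  · obtain ⟨J, hJo, htJ, hJ⟩ := H t (hI' ht)
    exact hJ.2.2 Φ U hΦ c (J ∩ I') Set.inter_subset_left (hJo.inter hI'o) (fun s hs => hc s hs.2) t
      ⟨htJ, ht⟩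

/-- the coordinate field of a smooth tangent field along a smooth coordinate curve is smooth. -/
theorem gpar_contDiffOn_coVec (hΦ : 𝓜.IsHol Φ U) (hI : IsOpen I) {c : ℝ → CE ι}
    (hc : ContDiffOn ℝ ∞ c I) (hcU : ∀ t ∈ I, c t ∈ U) (hE : ContDiffOn ℝ ∞ E I)
    (hEt : ∀ t ∈ I, E t ∈ 𝓜.tangent (Φ (c t))) :
    ContDiffOn ℝ ∞ (fun t => coVec Φ (c t) (E t)) I := by
  have hp := 𝓜.isParam hΦ
  intro t₀ ht₀
  obtain ⟨O, ρ, hO, hzO, hρ, hρeq⟩ := hp.exists_smooth_leftInverse (hcU t₀ ht₀)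
  have hU' : IsOpen (U ∩ Φ ⁻¹' O) := hp.isOpen_inter_preimage hO
  have hid : ∀ ζ ∈ U ∩ Φ ⁻¹' O, ∀ v : CE ι, fderiv ℝ ρ (Φ ζ) (fderiv ℝ Φ ζ v) = v := by
    intro ζ hζ v
    have h1 : HasFDerivAt (ρ ∘ Φ) ((fderiv ℝ ρ (Φ ζ)).comp (fderiv ℝ Φ ζ)) ζ :=
      (((hρ _ hζ.2).contDiffAt (hO.mem_nhds hζ.2)).differentiableAt (by simp)).hasFDerivAt.comp ζ
        (hp.differentiableAt hζ.1).hasFDerivAt
    have h2 : (ρ ∘ Φ) =ᶠ[𝓝 ζ] id := by
      filter_upwards [hU'.mem_nhds hζ] with y hy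
      show ρ (Φ y) = y
      rw [(hρeq _ ⟨hp.mem hy.1, hy.2⟩).2, hp.leftInv hy.1]
    have h3 := (h1.congr_of_eventuallyEq h2.symm).unique (hasFDerivAt_id ζ)
    exact congrArg (fun L : CE ι →L[ℝ] CE ι => L v) h3
  have hcat : ContDiffAt ℝ ∞ c t₀ := hc.contDiffAt (hI.mem_nhds ht₀)
  have hEat : ContDiffAt ℝ ∞ E t₀ := hE.contDiffAt (hI.mem_nhds ht₀)
  have hΦc : ContDiffAt ℝ ∞ (fun t => Φ (c t)) t₀ := (hp.contDiffAt (hcU t₀ ht₀)).comp t₀ hcat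
  have hdρ : ContDiffAt ℝ ∞ (fderiv ℝ ρ) (Φ (c t₀)) :=
    (hρ.fderiv_of_isOpen hO (by simp)).contDiffAt (hO.mem_nhds hzO)
  have h4 : ContDiffAt ℝ ∞ (fun t => fderiv ℝ ρ (Φ (c t)) (E t)) t₀ :=
    (hdρ.comp t₀ hΦc).clm_apply hEat
  refine (h4.congr_of_eventuallyEq ?_).contDiffWithinAt
  filter_upwards [hI.mem_nhds ht₀, hcat.continuousAt (hU'.mem_nhds ⟨hcU t₀ ht₀, hzO⟩)] with t ht htU
  have := hEt t ht
  rw [CMfd.tangent_eq hΦ htU.1] at this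
  obtain ⟨v, hv⟩ := this
  rw [← hv, hp.coVec_fderiv htU.1, hid _ htU]

/-- the coordinate field of a parallel field along a curve which stays in the image of one parametrisation. -/
theorem IsParallelAlong.coord (hI : IsOpen I) (hγ : ContDiffOn ℝ ∞ γ I)
    (hmem : ∀ t ∈ I, γ t ∈ 𝓜.carrier) (hE : IsParallelAlong 𝓜 h γ E I) (hΦ : 𝓜.IsHol Φ U)
    (hsub : ∀ t ∈ I, γ t ∈ Φ '' U) :
    ContDiffOn ℝ ∞ (fun t => coVec Φ ((Function.invFunOn Φ U ∘ γ) t) (E t)) I ∧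
    (kgeo h Φ U).IsParallel (Function.invFunOn Φ U ∘ γ)
      (fun t => coVec Φ ((Function.invFunOn Φ U ∘ γ) t) (E t)) I ∧
    ∀ t ∈ I, E t = fderiv ℝ Φ ((Function.invFunOn Φ U ∘ γ) t)
      (coVec Φ ((Function.invFunOn Φ U ∘ γ) t) (E t)) := by
  have hp := 𝓜.isParam hΦ
  have hc : ∀ t ∈ I, (Function.invFunOn Φ U ∘ γ) t ∈ U ∧ Φ ((Function.invFunOn Φ U ∘ γ) t) = γ t :=
    fun t ht => ⟨hp.invFunOn_mem (hsub t ht), hp.rightInv (hsub t ht)⟩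
  have hcs : ContDiffOn ℝ ∞ (Function.invFunOn Φ U ∘ γ) I := fun t ht =>
    (hp.contDiffAt_invFunOn_comp le_rfl (hγ.contDiffAt (hI.mem_nhds ht))
      (by filter_upwards [hI.mem_nhds ht] with s hs using hmem s hs) (hsub t ht)).contDiffWithinAt
  refine ⟨gpar_contDiffOn_coVec hΦ hI hcs (fun t ht => (hc t ht).1) hE.1
    (fun t ht => by rw [(hc t ht).2]; exact hE.2.1 t ht), hE.2.2 Φ U hΦ _ I subset_rfl hI hc,
    fun t ht => ?_⟩
  have := hE.2.1 t ht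
  rw [← (hc t ht).2, CMfd.tangent_eq hΦ (hc t ht).1] at this
  obtain ⟨v, hv⟩ := this
  rw [← hv, hp.coVec_fderiv (hc t ht).1]

/-- a parallel field of one chart is a parallel field of the manifold. -/
theorem isParallelAlong_of_isParallel (hk : IsKahler 𝓜 h) (hΦ : 𝓜.IsHol Φ U) (hI : IsOpen I)
    {c Z : ℝ → CE ι} (hc : ContDiffOn ℝ ∞ c I) (hcU : ∀ t ∈ I, c t ∈ U) (hZ : ContDiffOn ℝ ∞ Z I)
    (hp : (kgeo h Φ U).IsParallel c Z I) :
    IsParallelAlong 𝓜 h (Φ ∘ c) (fun t => fderiv ℝ Φ (c t) (Z t)) I := by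
  have hpar := 𝓜.isParam hΦ
  refine ⟨fun t ht => ?_, fun t ht => ?_, ?_⟩
  · have h1 : ContDiffAt ℝ ∞ (fderiv ℝ Φ) (c t) :=
      (hpar.smooth.fderiv_of_isOpen hpar.isOpen (by simp)).contDiffAt (hpar.isOpen.mem_nhds (hcU t ht))
    exact ((h1.comp t (hc.contDiffAt (hI.mem_nhds ht))).clm_apply
      (hZ.contDiffAt (hI.mem_nhds ht))).contDiffWithinAt
  · show fderiv ℝ Φ (c t) (Z t) ∈ 𝓜.tangent (Φ (c t))
    rw [CMfd.tangent_eq hΦ (hcU t ht)]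
    exact ⟨_, rfl⟩
  · intro Ψ W hΨ e I' hI' hI'o he
    have hov := CMfd.isOpen_overlap hΦ hΨ
    have hΦ' : 𝓜.IsHol Φ (U ∩ Φ ⁻¹' (Ψ '' W)) := 𝓜.isHol_mono hΦ hov Set.inter_subset_left
    have hcU' : ∀ t ∈ I', c t ∈ U ∩ Φ ⁻¹' (Ψ '' W) := fun t ht =>
      ⟨hcU t (hI' ht), e t, (he t ht).1, (he t ht).2⟩
    have hp' : (kgeo h Φ (U ∩ Φ ⁻¹' (Ψ '' W))).IsParallel c Z I' := fun t ht => hp t (hI' ht)
    have h1 := ((isIsom_trans hk.toIsHForm hΦ hΨ).isParallel_iff (kgeo_isRiem hk hΦ')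
      (kgeo_isRiem hk hΨ) (c := c) (Z := Z) (I := I')
      (fun t ht => ⟨hcU' t ht, (hc.contDiffAt (hI.mem_nhds (hI' ht))).differentiableAt (by simp)⟩)
      (fun t ht => (hZ.contDiffAt (hI.mem_nhds (hI' ht))).differentiableAt (by simp))).2 hp'
    intro t ht
    have e1 : e =ᶠ[𝓝 t] fun s => (Function.invFunOn Ψ W ∘ Φ) (c s) := by
      filter_upwards [hI'o.mem_nhds ht] with s hs
      exact (CMfd.trans_eq hΦ hΨ (he s hs).1 (he s hs).2.symm).symm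
    have e2 : (fun s => coVec Ψ (e s) (fderiv ℝ Φ (c s) (Z s))) =ᶠ[𝓝 t]
        fun s => fderiv ℝ (Function.invFunOn Ψ W ∘ Φ) (c s) (Z s) := by
      filter_upwards [hI'o.mem_nhds ht] with s hs
      rw [← CMfd.trans_eq hΦ hΨ (he s hs).1 (he s hs).2.symm, CMfd.coVec_trans hΦ hΨ (hcU' s hs),
        (CMfd.trans_hasFDerivAt_real hΦ hΨ (hcU' s hs)).fderiv]
      rfl
    rw [← h1 t ht]
    have e1' : e t = (Function.invFunOn Ψ W ∘ Φ) (c t) := e1.self_of_nhds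
    have e2' : coVec Ψ (e t) (fderiv ℝ Φ (c t) (Z t)) =
      fderiv ℝ (Function.invFunOn Ψ W ∘ Φ) (c t) (Z t) := e2.self_of_nhds
    simp only [RGeo.covD, e1.deriv_eq, e2.deriv_eq]
    rw [e2', e1']

/-! ### 2. `G4-PAR-B`: uniqueness and existence -/

theorem IsParallelAlong.eqOn (hk : IsKahler 𝓜 h) (hγ : IsGeodesic 𝓜 h γ (Set.Ioo a b))
    (hE : IsParallelAlong 𝓜 h γ E (Set.Ioo a b)) (hE' : IsParallelAlong 𝓜 h γ E' (Set.Ioo a b)) {t₀ : ℝ}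
    (ht₀ : t₀ ∈ Set.Ioo a b) (h0 : E t₀ = E' t₀) : Set.EqOn E E' (Set.Ioo a b) := by
  refine geod_Ioo_induction (P := fun r => E r = E' r) ht₀ h0 fun t ht => ?_
  obtain ⟨Φ, U, hΦ, hx⟩ := 𝓜.cover _ (hγ.2.1 t ht)
  obtain ⟨δ, hδ, hsub, hch⟩ := geod_exists_chart_nhds isOpen_Ioo hγ.1.continuousOn hγ.2.1 ht hΦ hx
  refine ⟨δ, hδ, fun r hr r' hr' _ _ hP => ?_⟩
  have hγJ := hγ.mono hsub
  obtain ⟨hc, Hc⟩ := hγJ.coord isOpen_Ioo hΦ hch
  obtain ⟨hZs, hZp, hZe⟩ := (hE.mono hsub).coord isOpen_Ioo hγJ.1 hγJ.2.1 hΦ hch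
  obtain ⟨hZs', hZp', hZe'⟩ := (hE'.mono hsub).coord isOpen_Ioo hγJ.1 hγJ.2.1 hΦ hch
  have heq := RGeo.isParallel_eqOn (kgeo_isRiem hk hΦ) Set.ordConnected_Ioo
    (fun s hs => ⟨(Hc s hs).1, hc.differentiableAt isOpen_Ioo hs⟩) hZp hZp'
    (fun s hs => (hZs.contDiffAt (isOpen_Ioo.mem_nhds hs)).differentiableAt (by simp))
    (fun s hs => (hZs'.contDiffAt (isOpen_Ioo.mem_nhds hs)).differentiableAt (by simp)) hr
    (by rw [hP])
  show E r' = E' r'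
  rw [hZe r' hr', hZe' r' hr']
  exact congrArg _ (heq hr')

/-- local existence, on an interval which does not depend on the initial time and value. -/
theorem gpar_exists_local (hk : IsKahler 𝓜 h) (hγ : IsGeodesic 𝓜 h γ (Set.Ioo a b)) {t₁ : ℝ}
    (ht₁ : t₁ ∈ Set.Ioo a b) :
    ∃ δ > 0, Set.Ioo (t₁ - δ) (t₁ + δ) ⊆ Set.Ioo a b ∧
      ∀ t ∈ Set.Ioo (t₁ - δ) (t₁ + δ), ∀ e ∈ 𝓜.tangent (γ t),
        ∃ E : ℝ → V, IsParallelAlong 𝓜 h γ E (Set.Ioo (t₁ - δ) (t₁ + δ)) ∧ E t = e := by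
  obtain ⟨Φ, U, hΦ, hx⟩ := 𝓜.cover _ (hγ.2.1 t₁ ht₁)
  obtain ⟨δ, hδ, hsub, hch⟩ := geod_exists_chart_nhds isOpen_Ioo hγ.1.continuousOn hγ.2.1 ht₁ hΦ hx
  refine ⟨δ, hδ, hsub, fun t ht e he => ?_⟩
  obtain ⟨hc, Hc⟩ := (hγ.mono hsub).coord isOpen_Ioo hΦ hch
  rw [← (Hc t ht).2.1, CMfd.tangent_eq hΦ (Hc t ht).1] at he
  obtain ⟨v, rfl⟩ := he
  obtain ⟨Z, hZs, hZp, hZt⟩ := (kgeo_isRiem hk hΦ).exists_parallel isOpen_Ioo Set.ordConnected_Ioo
    hc.1 hc.2.1 ht v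
  refine ⟨_, (isParallelAlong_of_isParallel hk hΦ isOpen_Ioo hc.1 hc.2.1 hZs hZp).congr
    (fun s hs => ((Hc s hs).2.1).symm) (fun s _ => rfl), ?_⟩
  beta_reduce
  rw [hZt]

/-- gluing of two parallel fields with a common value. -/
theorem IsParallelAlong.glue (hk : IsKahler 𝓜 h) {c d t₀ : ℝ}
    (hγ : IsGeodesic 𝓜 h γ (Set.Ioo (min a c) (max b d)))
    (hE : IsParallelAlong 𝓜 h γ E (Set.Ioo a b)) (hE' : IsParallelAlong 𝓜 h γ E' (Set.Ioo c d))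
    (ht₀ : t₀ ∈ Set.Ioo a b) (ht₀' : t₀ ∈ Set.Ioo c d) (h0 : E t₀ = E' t₀) :
    ∃ F : ℝ → V, IsParallelAlong 𝓜 h γ F (Set.Ioo (min a c) (max b d)) ∧
      Set.EqOn F E (Set.Ioo a b) ∧ Set.EqOn F E' (Set.Ioo c d) := by
  classical
  have hs1 : Set.Ioo (max a c) (min b d) ⊆ Set.Ioo a b := fun t ht =>
    ⟨(le_max_left _ _).trans_lt ht.1, ht.2.trans_le (min_le_left _ _)⟩
  have hs2 : Set.Ioo (max a c) (min b d) ⊆ Set.Ioo c d := fun t ht =>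
    ⟨(le_max_right _ _).trans_lt ht.1, ht.2.trans_le (min_le_right _ _)⟩
  have hs3 : Set.Ioo a b ⊆ Set.Ioo (min a c) (max b d) := fun t ht =>
    ⟨(min_le_left _ _).trans_lt ht.1, ht.2.trans_le (le_max_left _ _)⟩
  have hov : Set.EqOn E E' (Set.Ioo (max a c) (min b d)) :=
    (hE.mono hs1).eqOn hk (hγ.mono (hs1.trans hs3)) (hE'.mono hs2)
      ⟨max_lt ht₀.1 ht₀'.1, lt_min ht₀.2 ht₀'.2⟩ h0
  have e1 : Set.EqOn (fun t => if t ∈ Set.Ioo a b then E t else E' t) E (Set.Ioo a b) :=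
    fun t ht => if_pos ht
  have e2 : Set.EqOn (fun t => if t ∈ Set.Ioo a b then E t else E' t) E' (Set.Ioo c d) := by
    intro t ht
    show (if t ∈ Set.Ioo a b then E t else E' t) = E' t
    split_ifs with h'
    · exact hov ⟨max_lt h'.1 ht.1, lt_min h'.2 ht.2⟩
    · rfl
  refine ⟨fun t => if t ∈ Set.Ioo a b then E t else E' t, IsParallelAlong.of_local fun t ht => ?_,
    e1, e2⟩
  have hcase : t ∈ Set.Ioo a b ∨ t ∈ Set.Ioo c d := by
    rcases le_total t t₀ with hle | hle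
    · rcases min_lt_iff.1 ht.1 with h' | h'
      · exact Or.inl ⟨h', hle.trans_lt ht₀.2⟩
      · exact Or.inr ⟨h', hle.trans_lt ht₀'.2⟩
    · rcases lt_max_iff.1 ht.2 with h' | h'
      · exact Or.inl ⟨ht₀.1.trans_le hle, h'⟩
      · exact Or.inr ⟨ht₀'.1.trans_le hle, h'⟩
  rcases hcase with h' | h'
  · exact ⟨_, isOpen_Ioo, h', hE.congr (fun _ _ => rfl) e1⟩
  · exact ⟨_, isOpen_Ioo, h', hE'.congr (fun _ _ => rfl) e2⟩

/-- existence of the parallel field with a prescribed value. -/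
theorem exists_parallelAlong (hk : IsKahler 𝓜 h) (hγ : IsGeodesic 𝓜 h γ (Set.Ioo a b)) {t₀ : ℝ}
    (ht₀ : t₀ ∈ Set.Ioo a b) {e : V} (he : e ∈ 𝓜.tangent (γ t₀)) :
    ∃ E : ℝ → V, IsParallelAlong 𝓜 h γ E (Set.Ioo a b) ∧ E t₀ = e := by
  have key := geod_Ioo_induction (P := fun t => ∃ c d : ℝ, c < min t t₀ ∧ max t t₀ < d ∧
    Set.Ioo c d ⊆ Set.Ioo a b ∧ ∃ E : ℝ → V, IsParallelAlong 𝓜 h γ E (Set.Ioo c d) ∧ E t₀ = e) ht₀
    ?_ ?_
  · choose! c d hc hd hsub F hF hF0 using key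
    have hmem : ∀ t ∈ Set.Ioo a b, t ∈ Set.Ioo (c t) (d t) ∧ t₀ ∈ Set.Ioo (c t) (d t) := fun t ht =>
      ⟨⟨(hc t ht).trans_le (min_le_left _ _), (le_max_left _ _).trans_lt (hd t ht)⟩,
        ⟨(hc t ht).trans_le (min_le_right _ _), (le_max_right _ _).trans_lt (hd t ht)⟩⟩
    have hcomp : ∀ t ∈ Set.Ioo a b, Set.EqOn (fun s => F s s) (F t) (Set.Ioo (c t) (d t)) := by
      intro t ht s hs
      have hsI := hsub t ht hs
      have hs1 : Set.Ioo (max (c s) (c t)) (min (d s) (d t)) ⊆ Set.Ioo (c s) (d s) := fun r hr =>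
        ⟨(le_max_left _ _).trans_lt hr.1, hr.2.trans_le (min_le_left _ _)⟩
      have hs2 : Set.Ioo (max (c s) (c t)) (min (d s) (d t)) ⊆ Set.Ioo (c t) (d t) := fun r hr =>
        ⟨(le_max_right _ _).trans_lt hr.1, hr.2.trans_le (min_le_right _ _)⟩
      exact ((hF s hsI).mono hs1).eqOn hk (hγ.mono (hs1.trans (hsub s hsI))) ((hF t ht).mono hs2)
        (t₀ := t₀) ⟨max_lt (hmem s hsI).2.1 (hmem t ht).2.1, lt_min (hmem s hsI).2.2 (hmem t ht).2.2⟩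
        (by rw [hF0 s hsI, hF0 t ht]) ⟨max_lt (hmem s hsI).1.1 hs.1, lt_min (hmem s hsI).1.2 hs.2⟩
    refine ⟨fun s => F s s, IsParallelAlong.of_local fun t ht => ?_, hF0 t₀ ht₀⟩
    exact ⟨_, isOpen_Ioo, (hmem t ht).1, (hF t ht).congr (fun _ _ => rfl) (hcomp t ht)⟩
  · obtain ⟨δ, hδ, hsub, H⟩ := gpar_exists_local hk hγ ht₀
    obtain ⟨E, hE, hE0⟩ := H t₀ ⟨by linarith, by linarith⟩ e he
    exact ⟨t₀ - δ, t₀ + δ, by simpa using hδ, by simpa using hδ, hsub, E, hE, hE0⟩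
  · intro t ht
    obtain ⟨δ, hδ, hsub, H⟩ := gpar_exists_local hk hγ ht
    refine ⟨δ, hδ, fun s hs s' hs' hsI _ hP => ?_⟩
    obtain ⟨c, d, hc, hd, hcd, E, hE, hE0⟩ := hP
    have hsc : s ∈ Set.Ioo c d :=
      ⟨hc.trans_le (min_le_left _ _), (le_max_left _ _).trans_lt hd⟩
    have ht₀c : t₀ ∈ Set.Ioo c d :=
      ⟨hc.trans_le (min_le_right _ _), (le_max_right _ _).trans_lt hd⟩
    obtain ⟨E', hE', hE's⟩ := H s hs (E s) (hE.2.1 s hsc)
    have hbig : Set.Ioo (min c (t - δ)) (max d (t + δ)) ⊆ Set.Ioo a b := by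
      intro r hr
      rcases le_total r s with hle | hle
      · rcases min_lt_iff.1 hr.1 with h' | h'
        · exact hcd ⟨h', hle.trans_lt hsc.2⟩
        · exact hsub ⟨h', hle.trans_lt hs.2⟩
      · rcases lt_max_iff.1 hr.2 with h' | h'
        · exact hcd ⟨hsc.1.trans_le hle, h'⟩
        · exact hsub ⟨hs.1.trans_le hle, h'⟩
    obtain ⟨F, hF, hFE, -⟩ := hE.glue hk (hγ.mono hbig) hE' hsc hs hE's.symm
    refine ⟨min c (t - δ), max d (t + δ), ?_, ?_, hbig, F, hF, by rw [hFE ht₀c, hE0]⟩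
    · exact lt_min ((min_le_right _ _).trans_lt hs'.1) ((min_le_left _ _).trans_lt ht₀c.1)
    · exact max_lt (hs'.2.trans_le (le_max_right _ _)) (ht₀c.2.trans_le (le_max_left _ _))

/-! ### 3. `G4-PAR-C`: properties -/

/-- parallel transport is isometric. -/
theorem IsParallelAlong.ambB_const (hk : IsKahler 𝓜 h) (hγ : IsGeodesic 𝓜 h γ (Set.Ioo a b))
    (hE : IsParallelAlong 𝓜 h γ E (Set.Ioo a b)) (hE' : IsParallelAlong 𝓜 h γ E' (Set.Ioo a b)) {s t : ℝ}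
    (hs : s ∈ Set.Ioo a b) (ht : t ∈ Set.Ioo a b) :
    ambB 𝓜 h (γ s) (E s) (E' s) = ambB 𝓜 h (γ t) (E t) (E' t) := by
  refine (geod_Ioo_induction
    (P := fun r => ambB 𝓜 h (γ r) (E r) (E' r) = ambB 𝓜 h (γ s) (E s) (E' s)) hs rfl
    (fun t₁ ht₁ => ?_) t ht).symm
  obtain ⟨Φ, U, hΦ, hx⟩ := 𝓜.cover _ (hγ.2.1 t₁ ht₁)
  obtain ⟨δ, hδ, hsub, hch⟩ := geod_exists_chart_nhds isOpen_Ioo hγ.1.continuousOn hγ.2.1 ht₁ hΦ hx
  refine ⟨δ, hδ, fun r hr r' hr' _ _ hP => ?_⟩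
  have hγJ := hγ.mono hsub
  obtain ⟨hc, Hc⟩ := hγJ.coord isOpen_Ioo hΦ hch
  obtain ⟨hZs, hZp, hZe⟩ := (hE.mono hsub).coord isOpen_Ioo hγJ.1 hγJ.2.1 hΦ hch
  obtain ⟨hZs', hZp', hZe'⟩ := (hE'.mono hsub).coord isOpen_Ioo hγJ.1 hγJ.2.1 hΦ hch
  have hG := hZp.G_const (kgeo_isRiem hk hΦ) Set.ordConnected_Ioo
    (fun s hs => ⟨(Hc s hs).1, hc.differentiableAt isOpen_Ioo hs⟩) hZp'
    (fun s hs => (hZs.contDiffAt (isOpen_Ioo.mem_nhds hs)).differentiableAt (by simp))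
    (fun s hs => (hZs'.contDiffAt (isOpen_Ioo.mem_nhds hs)).differentiableAt (by simp)) hr hr'
  have hval : ∀ q ∈ Set.Ioo (t₁ - δ) (t₁ + δ), ambB 𝓜 h (γ q) (E q) (E' q) =
      (kgeo h Φ U).G ((Function.invFunOn Φ U ∘ γ) q)
        (coVec Φ ((Function.invFunOn Φ U ∘ γ) q) (E q))
        (coVec Φ ((Function.invFunOn Φ U ∘ γ) q) (E' q)) := by
    intro q hq
    rw [kgeo_G_apply, ← ambB_param hk.toIsHForm hΦ (Hc q hq).1, ← hZe q hq, ← hZe' q hq,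
      (Hc q hq).2.1]
  show ambB 𝓜 h (γ r') (E r') (E' r') = _
  rw [hval r' hr', ← hG, ← hval r hr]
  exact hP

/-- parallel transport commutes with the complex structure. -/
theorem IsParallelAlong.ambJ (hk : IsKahler 𝓜 h) (hγ : IsGeodesic 𝓜 h γ (Set.Ioo a b))
    (hE : IsParallelAlong 𝓜 h γ E (Set.Ioo a b)) :
    IsParallelAlong 𝓜 h γ (fun t => ambJ 𝓜 (γ t) (E t)) (Set.Ioo a b) := by
  refine IsParallelAlong.of_local fun t₁ ht₁ => ?_
  obtain ⟨Φ, U, hΦ, hx⟩ := 𝓜.cover _ (hγ.2.1 t₁ ht₁)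
  obtain ⟨δ, hδ, hsub, hch⟩ := geod_exists_chart_nhds isOpen_Ioo hγ.1.continuousOn hγ.2.1 ht₁ hΦ hx
  refine ⟨Set.Ioo (t₁ - δ) (t₁ + δ), isOpen_Ioo, ⟨by linarith, by linarith⟩, ?_⟩
  have hγJ := hγ.mono hsub
  obtain ⟨hc, Hc⟩ := hγJ.coord isOpen_Ioo hΦ hch
  obtain ⟨hZs, hZp, hZe⟩ := (hE.mono hsub).coord isOpen_Ioo hγJ.1 hγJ.2.1 hΦ hch
  refine (isParallelAlong_of_isParallel hk hΦ isOpen_Ioo hc.1 hc.2.1 (hZs.const_smul Complex.I)
    (matGeo_isParallel_I (h Φ) U hZp)).congr (fun s hs => ((Hc s hs).2.1).symm) fun s hs => ?_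
  beta_reduce
  rw [← ambJ_param hΦ (Hc s hs).1, ← hZe s hs, (Hc s hs).2.1]

theorem IsParallelAlong.add (hk : IsKahler 𝓜 h) (hγ : IsGeodesic 𝓜 h γ (Set.Ioo a b))
    (hE : IsParallelAlong 𝓜 h γ E (Set.Ioo a b)) (hE' : IsParallelAlong 𝓜 h γ E' (Set.Ioo a b)) :
    IsParallelAlong 𝓜 h γ (fun t => E t + E' t) (Set.Ioo a b) := by
  refine IsParallelAlong.of_local fun t₁ ht₁ => ?_
  obtain ⟨Φ, U, hΦ, hx⟩ := 𝓜.cover _ (hγ.2.1 t₁ ht₁)
  obtain ⟨δ, hδ, hsub, hch⟩ := geod_exists_chart_nhds isOpen_Ioo hγ.1.continuousOn hγ.2.1 ht₁ hΦ hx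
  refine ⟨Set.Ioo (t₁ - δ) (t₁ + δ), isOpen_Ioo, ⟨by linarith, by linarith⟩, ?_⟩
  have hγJ := hγ.mono hsub
  obtain ⟨hc, Hc⟩ := hγJ.coord isOpen_Ioo hΦ hch
  obtain ⟨hZs, hZp, hZe⟩ := (hE.mono hsub).coord isOpen_Ioo hγJ.1 hγJ.2.1 hΦ hch
  obtain ⟨hZs', hZp', hZe'⟩ := (hE'.mono hsub).coord isOpen_Ioo hγJ.1 hγJ.2.1 hΦ hch
  refine (isParallelAlong_of_isParallel hk hΦ isOpen_Ioo hc.1 hc.2.1 (hZs.add hZs')
    (hZp.add hZp'
      (fun s hs => (hZs.contDiffAt (isOpen_Ioo.mem_nhds hs)).differentiableAt (by simp))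
      (fun s hs => (hZs'.contDiffAt (isOpen_Ioo.mem_nhds hs)).differentiableAt (by simp)))).congr
    (fun s hs => ((Hc s hs).2.1).symm) fun s hs => ?_
  beta_reduce
  rw [map_add, ← hZe s hs, ← hZe' s hs]

theorem IsParallelAlong.smul (hk : IsKahler 𝓜 h) (hγ : IsGeodesic 𝓜 h γ (Set.Ioo a b))
    (hE : IsParallelAlong 𝓜 h γ E (Set.Ioo a b)) (c : ℝ) :
    IsParallelAlong 𝓜 h γ (fun t => c • E t) (Set.Ioo a b) := by
  refine IsParallelAlong.of_local fun t₁ ht₁ => ?_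
  obtain ⟨Φ, U, hΦ, hx⟩ := 𝓜.cover _ (hγ.2.1 t₁ ht₁)
  obtain ⟨δ, hδ, hsub, hch⟩ := geod_exists_chart_nhds isOpen_Ioo hγ.1.continuousOn hγ.2.1 ht₁ hΦ hx
  refine ⟨Set.Ioo (t₁ - δ) (t₁ + δ), isOpen_Ioo, ⟨by linarith, by linarith⟩, ?_⟩
  have hγJ := hγ.mono hsub
  obtain ⟨hc, Hc⟩ := hγJ.coord isOpen_Ioo hΦ hch
  obtain ⟨hZs, hZp, hZe⟩ := (hE.mono hsub).coord isOpen_Ioo hγJ.1 hγJ.2.1 hΦ hch
  refine (isParallelAlong_of_isParallel hk hΦ isOpen_Ioo hc.1 hc.2.1 (hZs.const_smul c)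
    (hZp.const_smul c)).congr (fun s hs => ((Hc s hs).2.1).symm) fun s hs => ?_
  beta_reduce
  rw [map_smul, ← hZe s hs]

/-- the velocity of a geodesic is parallel. -/
theorem IsGeodesic.isParallelAlong_deriv (hk : IsKahler 𝓜 h) (hγ : IsGeodesic 𝓜 h γ (Set.Ioo a b)) :
    IsParallelAlong 𝓜 h γ (deriv γ) (Set.Ioo a b) := by
  refine IsParallelAlong.of_local fun t₁ ht₁ => ?_
  obtain ⟨Φ, U, hΦ, hx⟩ := 𝓜.cover _ (hγ.2.1 t₁ ht₁)
  obtain ⟨δ, hδ, hsub, hch⟩ := geod_exists_chart_nhds isOpen_Ioo hγ.1.continuousOn hγ.2.1 ht₁ hΦ hx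
  refine ⟨Set.Ioo (t₁ - δ) (t₁ + δ), isOpen_Ioo, ⟨by linarith, by linarith⟩, ?_⟩
  obtain ⟨hc, Hc⟩ := (hγ.mono hsub).coord isOpen_Ioo hΦ hch
  exact (isParallelAlong_of_isParallel hk hΦ isOpen_Ioo hc.1 hc.2.1 (hc.contDiffOn_deriv isOpen_Ioo)
    hc.isParallel_deriv).congr (fun s hs => ((Hc s hs).2.1).symm) fun s hs => (Hc s hs).2.2

end Claimed.Agent.R316
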