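import Claimed.Agent.R316.Base.Geod.Min
import Claimed.Agent.R316.Pack016_2

/-!
# Row 316 base layer, `BP-G4`, leaves `G4-CALIB`, `G4-BALL-A`, `G4-BALL-B`: small balls are geodesically "normal"

Sub-captain of `BP-G4`: helper256.  Chart level black boxes: `BP-G1`, `RGeo/Exp.lean` (helper294): `RGeo.rexp`, `expDom`, `IsNormal`, `IsRiem.exists_normal`, `IsRiem.exists_nhds_pairs`, `IsNormal.hasFDerivAt_sq`, `IsNormal.isOpen_image`, `IsRiem.nrm_rexpV`, `IsRiem.isGeod_rexp`.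
EXPORT of this file: `geod_exists_normal` (the only statement used by `HR.lean`).
STATUS: this file is sorry-free (proved from the imported statements).

RECIPE `G4-CALIB` (`geod_calib`; a copy of the argument of `g0_key_deriv`, `g0_key`, `g0_len_lower` in `Metric/Local.lean`, with the squared norm replaced by an abstract function `Q`).
  `ψ = g0psi s₀` (`g0psi_hasDerivAt`, `ψ' = 1 - smoothTransition ∈ [0,1]`, `g0psi_eq_self`, `g0psi_const`, `g0psi_monotone`), `κ ∈ (0, s₀]`, `K := {ζ ∈ B | Q ζ ≤ (2 s₀)²}`,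
  `u x := if x ∈ Φ '' B then ψ (√(Q (invFunOn Φ B x) + κ²)) else ψ (2 s₀)`.  CLAIM: for a `C¹` curve `γ` in the carrier `F := u ∘ γ` has a derivative `F'` at every `t`, `|F'| ≤ √(ambQ (γ t) (γ' t))`:
  (1) `γ t ∈ Φ '' B`: `γ s ∈ Φ '' B` near `t` (`IsParam.eventually_mem_image`/`IsParam.image`), `c := invFunOn Φ B ∘ γ` is differentiable at `t`, `γ' = dΦ c'` (`IsParam.hasFDerivAt_invFunOn_comp`), `ambQ = qf (h Φ (c t)) (c' t)` (`ambQ_param`);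
      `F = ψ ∘ f ∘ c` near `t`, `f ζ = √(Q ζ + κ²) > 0`, `df_ζ v = Q' ζ v / (2 f ζ)` (`HasFDerivAt.sqrt`), `|df_ζ v| ≤ (√(Q ζ)/f ζ) √(qf ..) ≤ √(qf ..)`.
  (2) `γ t ∉ Φ '' B`: `Φ '' K` is compact (`IsParam.continuousOn`), hence closed; `γ s ∉ Φ '' K` near `t`; there `u (γ s) = ψ (2 s₀)` (if `γ s = Φ ζ`, `ζ ∈ B \ K`, then `√(Q ζ + κ²) ≥ 2 s₀`, `g0psi_const`): `F' = 0`.
  So `t ↦ len γ a t - F t` is monotone (`hasDerivAt_len`, `monotone_of_deriv_nonneg`): `u (γ b) - u (γ a) ≤ len γ a b`; `u (Φ w) = ψ κ = κ`, `u (Φ z) ≥ ψ (√(Q z)) = √(Q z)`; `κ → 0` (`le_of_forall_pos_le_add`).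

RECIPE `G4-BALL-A` (`geod_hdist_rexp`).  `S := kgeo h Φ U`, `hS := kgeo_isRiem hk hΦ`, `y := S.rexp z v`.
  `≤`: `geod_isGeodesic_rexp` + `IsGeodesic.hdist_le` with `s = 0`, `t = 1` (speed: `ambQ_param`, `kgeo_nrm`).
  `≥`: `hdist` is an infimum: `le_csInf` (nonempty: `exists_c1Curve hconn`); for each competitor `geod_calib` with `B := S.rexp z '' {v | S.nrm z v < ρ}` (open: `IsNormal.isOpen_image`; `⊆ U`: `rexp_mem`; `𝓜.isHol_mono`), `s₀ := ρ/3`,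
  `inv := invFunOn (S.rexp z) {v | S.nrm z v < ρ}`, `Q ζ := S.G z (inv ζ) (inv ζ)`, `Q' ζ := 2 • S.G ζ (S.rexpV z (inv ζ))` (`IsNormal.hasFDerivAt_sq`; `inv (rexp z v') = v'` by `IsNormal.injOn`, `Set.InjOn.leftInvOn_invFunOn`);
  bound: Cauchy-Schwarz `IsRiem.abs_G_le` + `IsRiem.nrm_rexpV`; `S.nrm ζ a = √(qf (h Φ ζ) a)` (`kgeo_nrm`).  `K = S.rexp z '' {v | S.G z v v ≤ (2 s₀)²}`: compact (`g0_isCompact_qf_le` with `w = 0`, `A = h Φ z` positive definite; `IsRiem.contDiffAt_rexp` gives continuity).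
  `w := z = rexp z 0` (`IsRiem.rexp_zero`), `Q z = 0`.

RECIPE `G4-BALL-B`.
* `geod_isGeodesic_rexp`: `IsRiem.isGeod_rexp`, `isGeodesic_of_isGeod`, `geod_deriv_comp`, `IsRiem.rexp_zero`.
* `geod_eq_rexp`: `σ t := Φ (rexp z (t • (l • a)))` is a geodesic on `Ioo (-ε') (1 + ε')`; `t ↦ σ (t / l)` (`IsGeodesic.comp_affine` with `c = 1/l`, `d = 0`) is a geodesic on `Ioo (-ε' l) (l + ε' l)` with the 1-jet `(Φ z, dΦ_z a)` at `0` (`deriv_comp_mul_left`-type lemma);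
  `IsGeodesic.eqOn` on `Ioo (-min ε (ε' l)) (l + min ε (ε' l)) ∋ 0, l`.
* `geod_exists_normal`: `p = Φ z₀` (`𝓜.cover`).  `(N, ρ₀)` from `IsRiem.exists_normal`; `N'` from `IsRiem.exists_nhds_pairs` with `ρ' = ρ₀/3`.  `Φ '' (N ∩ interior N')` is a relative neighbourhood of `p` (`IsParam.exists_isOpen_image`), so by `hasBasis_nhdsWithin_hball` there is `ρ₁ > 0` with
  `hball p ρ₁ ⊆ Φ '' (N ∩ N')`; `ρ := min ρ₁ (ρ₀/2)`.
  (i) `x = Φ z`, `y = Φ w`, `z, w ∈ N ∩ N'`: `v` with `nrm z v < ρ₀/3`, `rexp z v = w`; `l := nrm z v = hdist x y` (`geod_hdist_rexp`).  `l = 0`: `v = 0`, `x = y`; `exists_geodesic` with the zero vector gives `IsMinGeod γ x x 0` (`hdist_self`; `Icc 0 0 = {0}`).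
      `l > 0`: `γ t := Φ (rexp z (t • (l⁻¹ • v)))`: reparametrise `geod_isGeodesic_rexp` (`IsGeodesic.comp_affine`), unit speed (`ambQ_param`, `ambQ_smul` or `qf_smul_vec`), `isMinGeod_of_unit`.
  (ii) `x = Φ z`, `deriv γ_i 0 = dΦ_z a_i` (`IsGeodesic.deriv_mem_tangent`, `CMfd.tangent_eq`), `nrm z a_i = 1`, `nrm z (l • a_i) = l < 2 ρ ≤ ρ₀`: `(z, l • a_i) ∈ expDom` (`IsNormal.mem`), `geod_eq_rexp`: `Φ (rexp z (l • a₁)) = γ₁ l = γ₂ l = Φ (rexp z (l • a₂))`;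
      `Φ` is injective on `U` (`IsParam.injOn`, `rexp_mem`), `IsNormal.injOn`: `l • a₁ = l • a₂`.
-/

set_option autoImplicit false
set_option linter.unusedSectionVars false
set_option linter.unusedVariables false
set_option maxSynthPendingDepth 3
open scoped ContDiff ComplexOrder Topology

namespace Claimed.Agent.R316

variable {V : Type} [NormedAddCommGroup V] [NormedSpace ℝ V] [FiniteDimensional ℝ V]
variable {ι : Type} [Fintype ι] [DecidableEq ι]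
variable {𝓜 : CMfd V ι} {h : HFam V ι}
variable {Φ : CE ι → V} {U B : Set (CE ι)}

/-! ### `G4-CALIB` -/

/-- the derivative of the truncated regularised radial function `u` along a curve. -/
theorem geod_calib_deriv (hm : IsHForm 𝓜 h) (hΦ : 𝓜.IsHol Φ B) {Q : CE ι → ℝ}
    {Q' : CE ι → CE ι →L[ℝ] ℝ} {s₀ κ : ℝ} (hs₀ : 0 < s₀) (hκ : 0 < κ) (hQ0 : ∀ ζ ∈ B, 0 ≤ Q ζ)
    (hQd : ∀ ζ ∈ B, HasFDerivAt Q (Q' ζ) ζ)
    (hQb : ∀ ζ ∈ B, ∀ v : CE ι, |Q' ζ v| ≤ 2 * Real.sqrt (Q ζ) * Real.sqrt (qf (h Φ ζ) v))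
    (hK : IsCompact {ζ | ζ ∈ B ∧ Q ζ ≤ (2 * s₀) ^ 2}) {u : V → ℝ}
    (hu₁ : ∀ ζ ∈ B, u (Φ ζ) = g0psi s₀ (Real.sqrt (Q ζ + κ ^ 2)))
    (hu₂ : ∀ x, x ∉ Φ '' B → u x = g0psi s₀ (2 * s₀))
    {γ : ℝ → V} (hγ : IsC1Curve 𝓜 γ) (t : ℝ) :
    ∃ F' : ℝ, HasDerivAt (fun s => u (γ s)) F' t ∧
      |F'| ≤ Real.sqrt (ambQ 𝓜 h (γ t) (deriv γ t)) := by
  have hp := 𝓜.isParam hΦ
  have hκ2 : 0 < κ ^ 2 := by positivity
  by_cases hx : γ t ∈ Φ '' B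
  · obtain ⟨hd, hf⟩ := hp.hasFDerivAt_invFunOn_comp (hγ.differentiableAt t)
      (Filter.Eventually.of_forall hγ.2) hx
    have hev : (fun s => u (γ s)) =ᶠ[𝓝 t] (g0psi s₀ ∘ ((fun ζ => Real.sqrt (Q ζ + κ ^ 2)) ∘
        (Function.invFunOn Φ B ∘ γ))) := by
      obtain ⟨O, hO, hOeq⟩ := hp.image
      have hxO : γ t ∈ O := (hOeq ▸ hx : γ t ∈ 𝓜.carrier ∩ O).2
      filter_upwards [(hγ.differentiableAt t).continuousAt (hO.mem_nhds hxO)] with s hs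
      have hs' : γ s ∈ Φ '' B := by
        rw [hOeq]
        exact ⟨hγ.2 s, hs⟩
      have := hu₁ _ (hp.invFunOn_mem hs')
      rw [hp.rightInv hs'] at this
      exact this
    have hf1 := hf 1
    rw [fderiv_apply_one_eq_deriv, fderiv_apply_one_eq_deriv] at hf1
    have hd' := hd.hasDerivAt
    have hc0 : (Function.invFunOn Φ B ∘ γ) t = Function.invFunOn Φ B (γ t) := rfl
    obtain ⟨ζ, hζB, hζ⟩ := hx
    have hcζ : Function.invFunOn Φ B (γ t) = ζ := by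
      rw [← hζ]
      exact hp.leftInv hζB
    rw [hcζ] at hf1 hc0
    generalize deriv (Function.invFunOn Φ B ∘ γ) t = c' at *
    generalize Function.invFunOn Φ B ∘ γ = c at *
    have hspeed : ambQ 𝓜 h (γ t) (deriv γ t) = qf (h Φ ζ) c' := by
      rw [hf1, ← hζ]
      exact ambQ_param hm hΦ hζB c'
    have hQc := hQ0 _ hζB
    have hpos : 0 < Q ζ + κ ^ 2 := by linarith
    have h1 : HasFDerivAt (fun ζ => Q ζ + κ ^ 2) (Q' ζ) (c t) := by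
      rw [hc0]
      exact (hQd _ hζB).add_const _
    have h2 := h1.sqrt (by rw [hc0]; exact hpos.ne')
    have h3 := h2.comp_hasDerivAt t hd'
    have h4 := (g0psi_hasDerivAt s₀ (Real.sqrt (Q (c t) + κ ^ 2))).comp t h3
    refine ⟨_, h4.congr_of_eventuallyEq hev, ?_⟩
    rw [hspeed, hc0]
    have hb1 := hQb _ hζB c'
    have hn0 := Real.sqrt_nonneg (qf (h Φ ζ) c')
    generalize Real.sqrt (qf (h Φ ζ) c') = n at *
    have hst0 := Real.smoothTransition.nonneg ((Real.sqrt (Q ζ + κ ^ 2) - s₀) / s₀)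
    have hst1 := Real.smoothTransition.le_one ((Real.sqrt (Q ζ + κ ^ 2) - s₀) / s₀)
    generalize Real.smoothTransition ((Real.sqrt (Q ζ + κ ^ 2) - s₀) / s₀) = τ at *
    have hle : Real.sqrt (Q ζ) ≤ Real.sqrt (Q ζ + κ ^ 2) := Real.sqrt_le_sqrt (by linarith)
    have hfpos : 0 < Real.sqrt (Q ζ + κ ^ 2) := Real.sqrt_pos.2 hpos
    have hq0 : 0 ≤ Real.sqrt (Q ζ) := Real.sqrt_nonneg _
    simp only [_root_.smul_apply, smul_eq_mul]
    generalize Real.sqrt (Q ζ + κ ^ 2) = f at *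
    generalize Real.sqrt (Q ζ) = q at *
    generalize Q' ζ c' = D at *
    rw [abs_mul, abs_mul, abs_of_nonneg (by linarith : (0 : ℝ) ≤ 1 - τ),
      abs_of_pos (by positivity : (0 : ℝ) < 1 / (2 * f))]
    have h6 : 1 / (2 * f) * |D| ≤ n := by
      rw [div_mul_eq_mul_div, one_mul, div_le_iff₀ (by positivity)]
      nlinarith
    have h7 : 0 ≤ 1 / (2 * f) * |D| := by positivity
    nlinarith
  · have hKc : IsClosed (Φ '' {ζ | ζ ∈ B ∧ Q ζ ≤ (2 * s₀) ^ 2}) :=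
      (hK.image_of_continuousOn (hp.continuousOn.mono fun ζ hζ => hζ.1)).isClosed
    have hxK : γ t ∉ Φ '' {ζ | ζ ∈ B ∧ Q ζ ≤ (2 * s₀) ^ 2} := fun ⟨ζ, hζ, e⟩ => hx ⟨ζ, hζ.1, e⟩
    have hev : (fun s => u (γ s)) =ᶠ[𝓝 t] fun _ => g0psi s₀ (2 * s₀) := by
      filter_upwards [(hγ.differentiableAt t).continuousAt (hKc.isOpen_compl.mem_nhds hxK)] with s hs
      by_cases hs' : γ s ∈ Φ '' B
      · obtain ⟨ζ, hζB, hζ⟩ := hs'
        have hQζ : (2 * s₀) ^ 2 < Q ζ := by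
          by_contra hcon
          exact hs ⟨ζ, ⟨hζB, not_lt.1 hcon⟩, hζ⟩
        rw [← hζ, hu₁ ζ hζB]
        refine g0psi_const hs₀ ?_
        refine Real.le_sqrt_of_sq_le ?_
        linarith
      · exact hu₂ _ hs'
    refine ⟨0, (hasDerivAt_const t _).congr_of_eventuallyEq hev, ?_⟩
    rw [abs_zero]
    exact Real.sqrt_nonneg _

/-- **calibration**: a nonnegative function `Q` on a parametrised set `B` with `|dQ(v)| ≤ 2 √Q |v|_h` and compact sublevel set `{Q ≤ (2 s₀)²}` bounds the length of all curves of the manifold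
from its zero `Φ w` to a point `Φ z` with `Q z ≤ s₀²` from below by `√(Q z)`. -/
theorem geod_calib (hm : IsHForm 𝓜 h) (hΦ : 𝓜.IsHol Φ B) {Q : CE ι → ℝ}
    {Q' : CE ι → CE ι →L[ℝ] ℝ} {s₀ : ℝ} (hs₀ : 0 < s₀) (hQ0 : ∀ ζ ∈ B, 0 ≤ Q ζ)
    (hQd : ∀ ζ ∈ B, HasFDerivAt Q (Q' ζ) ζ)
    (hQb : ∀ ζ ∈ B, ∀ v : CE ι, |Q' ζ v| ≤ 2 * Real.sqrt (Q ζ) * Real.sqrt (qf (h Φ ζ) v))
    (hK : IsCompact {ζ | ζ ∈ B ∧ Q ζ ≤ (2 * s₀) ^ 2})
    {γ : ℝ → V} (hγ : IsC1Curve 𝓜 γ) {a b : ℝ} (hab : a ≤ b) {w z : CE ι} (hw : w ∈ B)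
    (hQw : Q w = 0) (ha : γ a = Φ w) (hz : z ∈ B) (hQz : Q z ≤ s₀ ^ 2) (hb : γ b = Φ z) :
    Real.sqrt (Q z) ≤ len 𝓜 h γ a b := by
  classical
  have hp := 𝓜.isParam hΦ
  have main : ∀ κ : ℝ, 0 < κ → κ ≤ s₀ → Real.sqrt (Q z) - κ ≤ len 𝓜 h γ a b := by
    intro κ hκ hκs
    obtain ⟨u, hu₁, hu₂⟩ : ∃ u : V → ℝ,
        (∀ ζ ∈ B, u (Φ ζ) = g0psi s₀ (Real.sqrt (Q ζ + κ ^ 2))) ∧
        (∀ x, x ∉ Φ '' B → u x = g0psi s₀ (2 * s₀)) := by
      refine ⟨fun x => if x ∈ Φ '' B then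
        g0psi s₀ (Real.sqrt (Q (Function.invFunOn Φ B x) + κ ^ 2)) else g0psi s₀ (2 * s₀),
        fun ζ hζ => ?_, fun x hx => if_neg hx⟩
      show (if Φ ζ ∈ Φ '' B then _ else _) = _
      rw [if_pos (Set.mem_image_of_mem Φ hζ), hp.leftInv hζ]
    choose F' hF' hF'le using geod_calib_deriv hm hΦ hs₀ hκ hQ0 hQd hQb hK hu₁ hu₂ hγ
    have hD : ∀ t, HasDerivAt (fun t => len 𝓜 h γ a t - u (γ t))
        (Real.sqrt (ambQ 𝓜 h (γ t) (deriv γ t)) - F' t) t :=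
      fun t => (hasDerivAt_len hm hγ a t).sub (hF' t)
    have hmono : Monotone fun t => len 𝓜 h γ a t - u (γ t) := by
      refine monotone_of_deriv_nonneg (fun t => (hD t).differentiableAt) fun t => ?_
      rw [(hD t).deriv]
      linarith [hF'le t, le_abs_self (F' t)]
    have h1 := hmono hab
    beta_reduce at h1
    rw [len_self, ha, hb, hu₁ w hw, hu₁ z hz, hQw, zero_add, Real.sqrt_sq hκ.le,
      g0psi_eq_self hs₀ hκs] at h1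
    have h2 : Real.sqrt (Q z) ≤ g0psi s₀ (Real.sqrt (Q z + κ ^ 2)) := by
      have h3 : Real.sqrt (Q z) ≤ s₀ := Real.sqrt_le_iff.2 ⟨hs₀.le, hQz⟩
      rw [← g0psi_eq_self hs₀ h3]
      exact g0psi_monotone s₀ (Real.sqrt_le_sqrt (by nlinarith [sq_nonneg κ]))
    linarith
  refine le_of_forall_pos_le_add fun ε hε => ?_
  have := main (min ε s₀) (lt_min hε hs₀) (min_le_right _ _)
  linarith [min_le_left ε s₀]

/-! ### `G4-BALL-B`, first part: radial geodesics -/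

/-- the radial geodesics of a chart are geodesics of the manifold. -/
theorem geod_isGeodesic_rexp (hk : IsKahler 𝓜 h) (hΦ : 𝓜.IsHol Φ U) {z v : CE ι}
    (hzv : (z, v) ∈ (kgeo h Φ U).expDom) :
    ∃ ε > 0, IsGeodesic 𝓜 h (fun t : ℝ => Φ ((kgeo h Φ U).rexp z (t • v))) (Set.Ioo (-ε) (1 + ε)) ∧
      Φ ((kgeo h Φ U).rexp z ((0 : ℝ) • v)) = Φ z ∧
      deriv (fun t : ℝ => Φ ((kgeo h Φ U).rexp z (t • v))) 0 = fderiv ℝ Φ z v := by
  have hS := kgeo_isRiem hk hΦ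
  have hz : z ∈ U := RGeo.mem_U_of_mem_expDom hzv
  obtain ⟨ε, hε, -, hg, hd0, -⟩ := hS.isGeod_rexp hzv
  have h0 : (0 : ℝ) ∈ Set.Ioo (-ε) (1 + ε) := ⟨by linarith, by linarith⟩
  have hc0 : (kgeo h Φ U).rexp z ((0 : ℝ) • v) = z := by rw [zero_smul, hS.rexp_zero hz]
  refine ⟨ε, hε, isGeodesic_of_isGeod hk hΦ isOpen_Ioo hg, by rw [hc0], ?_⟩
  have := geod_deriv_comp hΦ (c := fun r : ℝ => (kgeo h Φ U).rexp z (r • v))
    (hg.differentiableAt isOpen_Ioo h0) (by show (kgeo h Φ U).rexp z ((0 : ℝ) • v) ∈ U; rw [hc0]; exact hz)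
  rw [hd0] at this
  have h2 : fderiv ℝ Φ ((kgeo h Φ U).rexp z ((0 : ℝ) • v)) = fderiv ℝ Φ z := by rw [hc0]
  exact this.trans (by rw [h2])

/-- reparametrisation of a geodesic defined around `[0,1]` to a geodesic defined around `[0,l]`. -/
theorem geod_reparam {σ : ℝ → V} {ε l : ℝ} (hε : 0 < ε) (hl : 0 < l)
    (hσ : IsGeodesic 𝓜 h σ (Set.Ioo (-ε) (1 + ε))) :
    IsGeodesic 𝓜 h (fun t => σ (l⁻¹ * t + 0)) (Set.Ioo (-(ε * l)) (l + ε * l)) ∧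
      deriv (fun t => σ (l⁻¹ * t + 0)) 0 = l⁻¹ • deriv σ 0 := by
  constructor
  · refine (hσ.comp_affine l⁻¹ 0).mono fun t ht => ?_
    show l⁻¹ * t + 0 ∈ Set.Ioo (-ε) (1 + ε)
    have hl' : 0 < l⁻¹ := inv_pos.2 hl
    have e1 : l⁻¹ * (-(ε * l)) = -ε := by field_simp
    have e2 : l⁻¹ * (l + ε * l) = 1 + ε := by field_simp
    constructor
    · have := mul_lt_mul_of_pos_left ht.1 hl'
      linarith
    · have := mul_lt_mul_of_pos_left ht.2 hl'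
      linarith
  · have h0 : (0 : ℝ) ∈ Set.Ioo (-ε) (1 + ε) := ⟨by linarith, by linarith⟩
    have hσd : HasDerivAt σ (deriv σ 0) (l⁻¹ * 0 + 0) := by
      simpa using (hσ.differentiableAt isOpen_Ioo h0).hasDerivAt
    have haff : HasDerivAt (fun t : ℝ => l⁻¹ * t + 0) l⁻¹ 0 := by
      simpa using ((hasDerivAt_id (0 : ℝ)).const_mul l⁻¹).add_const 0
    exact (HasDerivAt.scomp (h := fun t : ℝ => l⁻¹ * t + 0) (0 : ℝ) hσd haff).deriv

/-- a geodesic of the manifold is given by the exponential map of a chart as long as the latter is defined. -/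
theorem geod_eq_rexp (hk : IsKahler 𝓜 h) (hΦ : 𝓜.IsHol Φ U) {γ : ℝ → V} {l ε : ℝ} (hε : 0 < ε)
    (hl : 0 < l) (hγ : IsGeodesic 𝓜 h γ (Set.Ioo (-ε) (l + ε))) {z a : CE ι} (hz : z ∈ U)
    (h0 : γ 0 = Φ z) (h1 : deriv γ 0 = fderiv ℝ Φ z a) (hza : (z, l • a) ∈ (kgeo h Φ U).expDom) :
    γ l = Φ ((kgeo h Φ U).rexp z (l • a)) := by
  obtain ⟨ε', hε', hσ, hσ0, hσ1⟩ := geod_isGeodesic_rexp hk hΦ hza
  obtain ⟨hg, hd⟩ := geod_reparam hε' hl hσ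
  have hεl : 0 < ε' * l := mul_pos hε' hl
  have hδ : 0 < min ε (ε' * l) := lt_min hε hεl
  have h1' := hγ.mono (I' := Set.Ioo (-min ε (ε' * l)) (l + min ε (ε' * l))) fun t ht =>
    ⟨by linarith [ht.1, min_le_left ε (ε' * l)], by linarith [ht.2, min_le_left ε (ε' * l)]⟩
  have h2' := hg.mono (I' := Set.Ioo (-min ε (ε' * l)) (l + min ε (ε' * l))) fun t ht =>
    ⟨by linarith [ht.1, min_le_right ε (ε' * l)], by linarith [ht.2, min_le_right ε (ε' * l)]⟩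
  have heq := h1'.eqOn hk h2' (t₀ := 0) ⟨by linarith, by linarith⟩ ?_ ?_
  · rw [heq ⟨by linarith, by linarith⟩]
    show Φ ((kgeo h Φ U).rexp z ((l⁻¹ * l + 0) • l • a)) = _
    rw [inv_mul_cancel₀ hl.ne', add_zero, one_smul]
  · rw [h0]
    show Φ z = Φ ((kgeo h Φ U).rexp z ((l⁻¹ * 0 + 0) • l • a))
    rw [← hσ0]
    simp
  · rw [h1, hd, hσ1, map_smul, smul_smul, inv_mul_cancel₀ hl.ne', one_smul]

/-! ### `G4-BALL-A` -/

/-- **radial geodesics are minimizing** in a normal ball. -/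
theorem geod_hdist_rexp (hk : IsKahler 𝓜 h) (hconn : IsConnected 𝓜.carrier) (hΦ : 𝓜.IsHol Φ U)
    {N : Set (CE ι)} {ρ : ℝ} (hN : (kgeo h Φ U).IsNormal N ρ) {z v : CE ι} (hz : z ∈ N)
    (hv : 3 * (kgeo h Φ U).nrm z v < ρ) :
    hdist 𝓜 h (Φ z) (Φ ((kgeo h Φ U).rexp z v)) = (kgeo h Φ U).nrm z v := by
  have hm := hk.toIsMetric
  have hS : (kgeo h Φ U).IsRiem := kgeo_isRiem hk hΦ
  have hzU : z ∈ U := hN.subset hz
  have hρ := hN.pos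
  have hn0 := (kgeo h Φ U).nrm_nonneg z v
  have hvρ : (kgeo h Φ U).nrm z v < ρ := by linarith
  have hzv := hN.mem z hz v hvρ
  apply le_antisymm
  · obtain ⟨ε, hε, hσ, hσ0, hσ1⟩ := geod_isGeodesic_rexp hk hΦ hzv
    have := hσ.hdist_le hk (s := 0) (t := 1) ⟨by linarith, by linarith⟩ ⟨by linarith, by linarith⟩
    beta_reduce at this
    rw [hσ0, one_smul, hσ1, ambQ_param hk.toIsHForm hΦ hzU] at this
    simpa [kgeo_nrm] using this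
  · have hBo : IsOpen ((kgeo h Φ U).rexp z '' {v | (kgeo h Φ U).nrm z v < ρ}) :=
      hN.isOpen_image hS hz le_rfl
    have hBU : (kgeo h Φ U).rexp z '' {v | (kgeo h Φ U).nrm z v < ρ} ⊆ U := by
      rintro _ ⟨v', hv', rfl⟩
      exact RGeo.rexp_mem (hN.mem z hz v' hv')
    have hΦB := 𝓜.isHol_mono hΦ hBo hBU
    have hinv : ∀ v' ∈ {v | (kgeo h Φ U).nrm z v < ρ},
        Function.invFunOn ((kgeo h Φ U).rexp z) {v | (kgeo h Φ U).nrm z v < ρ}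
          ((kgeo h Φ U).rexp z v') = v' :=
      fun v' hv' => (hN.injOn z hz).leftInvOn_invFunOn hv'
    have hsq := fun (v' : CE ι) (hv' : (kgeo h Φ U).nrm z v' < ρ) => hN.hasFDerivAt_sq hS hz hv'
    generalize Function.invFunOn ((kgeo h Φ U).rexp z) {v | (kgeo h Φ U).nrm z v < ρ} = inv at *
    have hQ0 : ∀ ζ ∈ (kgeo h Φ U).rexp z '' {v | (kgeo h Φ U).nrm z v < ρ},
        0 ≤ (fun ζ => (kgeo h Φ U).G z (inv ζ) (inv ζ)) ζ := fun ζ _ => hS.G_self_nonneg hzU _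
    have hQd : ∀ ζ ∈ (kgeo h Φ U).rexp z '' {v | (kgeo h Φ U).nrm z v < ρ},
        HasFDerivAt (fun ζ => (kgeo h Φ U).G z (inv ζ) (inv ζ))
          ((fun ζ => (2 : ℝ) • (kgeo h Φ U).G ζ ((kgeo h Φ U).rexpV z (inv ζ))) ζ) ζ := by
      rintro _ ⟨v', hv', rfl⟩
      beta_reduce
      rw [hinv v' hv']
      exact hsq v' hv'
    have hQb : ∀ ζ ∈ (kgeo h Φ U).rexp z '' {v | (kgeo h Φ U).nrm z v < ρ}, ∀ a : CE ι,
        |(fun ζ => (2 : ℝ) • (kgeo h Φ U).G ζ ((kgeo h Φ U).rexpV z (inv ζ))) ζ a| ≤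
          2 * Real.sqrt ((fun ζ => (kgeo h Φ U).G z (inv ζ) (inv ζ)) ζ) *
            Real.sqrt (qf (h Φ ζ) a) := by
      rintro _ ⟨v', hv', rfl⟩ a
      beta_reduce
      rw [hinv v' hv']
      have h1 := hS.abs_G_le (RGeo.rexp_mem (hN.mem z hz v' hv')) ((kgeo h Φ U).rexpV z v') a
      rw [hS.nrm_rexpV (hN.mem z hz v' hv')] at h1
      simp only [_root_.smul_apply, smul_eq_mul, abs_mul, abs_two]
      have e1 : Real.sqrt ((kgeo h Φ U).G z v' v') = (kgeo h Φ U).nrm z v' := rfl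
      have e2 : Real.sqrt (qf (h Φ ((kgeo h Φ U).rexp z v')) a) =
        (kgeo h Φ U).nrm ((kgeo h Φ U).rexp z v') a := rfl
      rw [e1, e2, mul_assoc]
      linarith
    have hCD : ∀ v' : CE ι, (kgeo h Φ U).G z v' v' ≤ (2 * (ρ / 3)) ^ 2 →
        (kgeo h Φ U).nrm z v' < ρ := by
      intro v' hv'
      have : (kgeo h Φ U).nrm z v' ≤ 2 * (ρ / 3) := by
        rw [RGeo.nrm]
        exact Real.sqrt_le_iff.2 ⟨by linarith, hv'⟩
      linarith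
    have hK : IsCompact {ζ | ζ ∈ (kgeo h Φ U).rexp z '' {v | (kgeo h Φ U).nrm z v < ρ} ∧
        (fun ζ => (kgeo h Φ U).G z (inv ζ) (inv ζ)) ζ ≤ (2 * (ρ / 3)) ^ 2} := by
      have hC : IsCompact {v' : CE ι | (kgeo h Φ U).G z v' v' ≤ (2 * (ρ / 3)) ^ 2} := by
        have := g0_isCompact_qf_le (hm.posDef hΦ z hzU) (0 : CE ι) ((2 * (ρ / 3)) ^ 2)
        convert this using 3 with v'
        rw [kgeo_G_self]
        simp
      have himg : {ζ | ζ ∈ (kgeo h Φ U).rexp z '' {v | (kgeo h Φ U).nrm z v < ρ} ∧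
          (fun ζ => (kgeo h Φ U).G z (inv ζ) (inv ζ)) ζ ≤ (2 * (ρ / 3)) ^ 2} =
          (kgeo h Φ U).rexp z '' {v' : CE ι | (kgeo h Φ U).G z v' v' ≤ (2 * (ρ / 3)) ^ 2} := by
        ext ζ
        constructor
        · rintro ⟨⟨v', hv', rfl⟩, hq⟩
          beta_reduce at hq
          rw [hinv v' hv'] at hq
          exact ⟨v', hq, rfl⟩
        · rintro ⟨v', hv', rfl⟩
          refine ⟨⟨v', hCD v' hv', rfl⟩, ?_⟩
          beta_reduce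
          rw [hinv v' (hCD v' hv')]
          exact hv'
      rw [himg]
      exact hC.image_of_continuousOn fun v' hv' =>
        (hS.contDiffAt_rexp (hN.mem z hz v' (hCD v' hv'))).continuousAt.continuousWithinAt
    have h0D : (0 : CE ι) ∈ {v | (kgeo h Φ U).nrm z v < ρ} := by
      show (kgeo h Φ U).nrm z 0 < ρ
      rw [RGeo.nrm_zero]
      exact hρ
    have hzB : z ∈ (kgeo h Φ U).rexp z '' {v | (kgeo h Φ U).nrm z v < ρ} :=
      ⟨0, h0D, hS.rexp_zero hzU⟩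
    have hQz : (fun ζ => (kgeo h Φ U).G z (inv ζ) (inv ζ)) z = 0 := by
      beta_reduce
      have := hinv 0 h0D
      rw [hS.rexp_zero hzU] at this
      rw [this]
      simp
    have hyB : (kgeo h Φ U).rexp z v ∈ (kgeo h Φ U).rexp z '' {v | (kgeo h Φ U).nrm z v < ρ} :=
      ⟨v, hvρ, rfl⟩
    have hQy : (kgeo h Φ U).G z (inv ((kgeo h Φ U).rexp z v)) (inv ((kgeo h Φ U).rexp z v)) =
        (kgeo h Φ U).nrm z v ^ 2 := by
      rw [hinv v hvρ, hS.nrm_sq hzU]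
    have hxM : Φ z ∈ 𝓜.carrier := CMfd.mem_carrier hΦ hzU
    have hyM : Φ ((kgeo h Φ U).rexp z v) ∈ 𝓜.carrier := CMfd.mem_carrier hΦ (RGeo.rexp_mem hzv)
    obtain ⟨γ₀, hγ₀, a0, a1⟩ := exists_c1Curve hconn hxM hyM
    refine le_csInf ⟨_, γ₀, hγ₀, a0, a1, rfl⟩ ?_
    rintro _ ⟨γ, hγ, hγ0, hγ1, rfl⟩
    have := geod_calib hm.toIsHForm hΦB (s₀ := ρ / 3) (by linarith) hQ0 hQd hQb hK hγ zero_le_one
      hzB hQz hγ0 hyB (by rw [hQy]; exact pow_le_pow_left₀ hn0 (by linarith) 2) hγ1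
    rwa [hQy, Real.sqrt_sq hn0] at this

/-! ### `G4-BALL-B`, second part -/

/-- **normal balls**: (i) any two points of `hball p ρ` are joined by a minimizing geodesic; (ii) a unit speed geodesic of length `l < 2 ρ` issuing from a point of `hball p ρ` is determined by its end point. -/
theorem geod_exists_normal (hk : IsKahler 𝓜 h) (hconn : IsConnected 𝓜.carrier) {p : V}
    (hp : p ∈ 𝓜.carrier) :
    ∃ ρ > 0,
      (∀ x ∈ hball 𝓜 h p ρ, ∀ y ∈ hball 𝓜 h p ρ,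
        ∃ γ : ℝ → V, IsMinGeod 𝓜 h γ x y (hdist 𝓜 h x y)) ∧
      ∀ x ∈ hball 𝓜 h p ρ, ∀ (γ₁ γ₂ : ℝ → V) (l ε : ℝ), 0 < ε → 0 < l → l < 2 * ρ →
        IsGeodesic 𝓜 h γ₁ (Set.Ioo (-ε) (l + ε)) → IsGeodesic 𝓜 h γ₂ (Set.Ioo (-ε) (l + ε)) →
        γ₁ 0 = x → γ₂ 0 = x → ambQ 𝓜 h x (deriv γ₁ 0) = 1 → ambQ 𝓜 h x (deriv γ₂ 0) = 1 →
        γ₁ l = γ₂ l → deriv γ₁ 0 = deriv γ₂ 0 := by
  have hm := hk.toIsMetric
  obtain ⟨Φ, U, hΦ, z₀, hz₀, rfl⟩ := 𝓜.cover p hp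
  have hpar := 𝓜.isParam hΦ
  have hS := kgeo_isRiem hk hΦ
  obtain ⟨N, ρ₀, hz₀N, hN⟩ := hS.exists_normal hz₀
  have hρ₀ := hN.pos
  obtain ⟨N', hN', Hp⟩ := hS.exists_nhds_pairs hz₀ (ρ' := ρ₀ / 3) (by linarith)
  obtain ⟨O, hO, hOeq⟩ := hpar.exists_isOpen_image (hN.isOpen.inter isOpen_interior)
    (Set.inter_subset_left.trans hN.subset)
  have hz₀' : z₀ ∈ N ∩ interior N' := ⟨hz₀N, mem_interior_iff_mem_nhds.2 hN'⟩
  have hnh : Φ '' (N ∩ interior N') ∈ 𝓝[𝓜.carrier] (Φ z₀) := by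
    rw [hOeq]
    have hzO : Φ z₀ ∈ O := (hOeq ▸ Set.mem_image_of_mem Φ hz₀' : Φ z₀ ∈ 𝓜.carrier ∩ O).2
    exact Filter.inter_mem self_mem_nhdsWithin (mem_nhdsWithin_of_mem_nhds (hO.mem_nhds hzO))
  obtain ⟨ρ₁, hρ₁, hsub⟩ := (hasBasis_nhdsWithin_hball hm hconn hp).mem_iff.1 hnh
  have hsub' : hball 𝓜 h (Φ z₀) (min ρ₁ (ρ₀ / 2)) ⊆ Φ '' (N ∩ interior N') :=
    (hball_mono 𝓜 h _ (min_le_left _ _)).trans hsub
  refine ⟨min ρ₁ (ρ₀ / 2), lt_min hρ₁ (by linarith), ?_, ?_⟩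
  · intro x hx y hy
    obtain ⟨z, ⟨hzN, hzN'⟩, rfl⟩ := hsub' hx
    obtain ⟨w, ⟨hwN, hwN'⟩, rfl⟩ := hsub' hy
    have hzU := hN.subset hzN
    obtain ⟨v, hv, hzv, rfl⟩ := Hp z (interior_subset hzN') w (interior_subset hwN')
    have hd := geod_hdist_rexp hk hconn hΦ hN hzN (v := v) (by linarith)
    rcases (RGeo.nrm_nonneg (kgeo h Φ U) z v).eq_or_lt with hl | hl
    · rw [← hl] at hd
      have hxy := (hdist_eq_zero_iff hm hconn hx.1 hy.1).1 hd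
      rw [hd, ← hxy]
      exact exists_minGeod_self hk hx.1
    · obtain ⟨ε, hε, hσ, hσ0, hσ1⟩ := geod_isGeodesic_rexp hk hΦ hzv
      obtain ⟨hg, hdg⟩ := geod_reparam hε hl hσ
      have e0 : Φ ((kgeo h Φ U).rexp z ((((kgeo h Φ U).nrm z v)⁻¹ * 0 + 0) • v)) = Φ z := by
        rw [← hσ0]
        simp
      have e1 : Φ ((kgeo h Φ U).rexp z ((((kgeo h Φ U).nrm z v)⁻¹ * (kgeo h Φ U).nrm z v + 0) • v))
          = Φ ((kgeo h Φ U).rexp z v) := by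
        rw [inv_mul_cancel₀ hl.ne', add_zero, one_smul]
      have hmin := isMinGeod_of_unit hk hconn (mul_pos hε hl) hl.le hg ?_ ?_
      · rw [e0, e1] at hmin
        rw [hd]
        exact ⟨_, hmin⟩
      · rw [e0, hdg, hσ1, ← map_smul, ambQ_param hk.toIsHForm hΦ hzU, ← kgeo_G_self h Φ U,
          ← hS.nrm_sq hzU, RGeo.nrm_smul, abs_of_pos (inv_pos.2 hl), inv_mul_cancel₀ hl.ne', one_pow]
      · rw [e0, e1, hd]
  · intro x hx γ₁ γ₂ l ε hε hl hl2 hγ₁ hγ₂ h₁0 h₂0 hu₁ hu₂ hend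
    obtain ⟨z, ⟨hzN, -⟩, rfl⟩ := hsub' hx
    have hzU := hN.subset hzN
    have h0I : (0 : ℝ) ∈ Set.Ioo (-ε) (l + ε) := ⟨by linarith, by linarith⟩
    have ht₁ := hγ₁.deriv_mem_tangent isOpen_Ioo h0I
    have ht₂ := hγ₂.deriv_mem_tangent isOpen_Ioo h0I
    rw [h₁0, CMfd.tangent_eq hΦ hzU] at ht₁
    rw [h₂0, CMfd.tangent_eq hΦ hzU] at ht₂
    obtain ⟨a₁, ha₁⟩ := ht₁
    obtain ⟨a₂, ha₂⟩ := ht₂
    have hnorm : ∀ a : CE ι, ambQ 𝓜 h (Φ z) (fderiv ℝ Φ z a) = 1 →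
        (kgeo h Φ U).nrm z (l • a) < ρ₀ := by
      intro a ha
      rw [ambQ_param hk.toIsHForm hΦ hzU] at ha
      rw [RGeo.nrm_smul, kgeo_nrm, ha, Real.sqrt_one, mul_one, abs_of_pos hl]
      have := min_le_right ρ₁ (ρ₀ / 2)
      linarith
    have hn₁ := hnorm a₁ (by rw [ha₁]; exact hu₁)
    have hn₂ := hnorm a₂ (by rw [ha₂]; exact hu₂)
    have e₁ := geod_eq_rexp hk hΦ hε hl hγ₁ hzU h₁0 ha₁.symm (hN.mem z hzN _ hn₁)
    have e₂ := geod_eq_rexp hk hΦ hε hl hγ₂ hzU h₂0 ha₂.symm (hN.mem z hzN _ hn₂)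
    have e₃ : (kgeo h Φ U).rexp z (l • a₁) = (kgeo h Φ U).rexp z (l • a₂) :=
      hpar.injOn (RGeo.rexp_mem (hN.mem z hzN _ hn₁)) (RGeo.rexp_mem (hN.mem z hzN _ hn₂))
        (by rw [← e₁, ← e₂, hend])
    have e₄ : l • a₁ = l • a₂ := hN.injOn z hzN hn₁ hn₂ e₃
    have e₅ : a₁ = a₂ := smul_right_injective _ hl.ne' e₄
    rw [← ha₁, ← ha₂, e₅]

end Claimed.Agent.R316
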