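import Claimed.Agent.R316.Base.Geod.Uniq

/-!
# Row 316 base layer, `BP-G4`, leaves `G4-EXT` (uniform existence time, extension) and `G4-UNIV` (completeness)

Sub-captain of `BP-G4`: helper256.  Statements of `IsGeodesic.extend`, `exists_geodesic_univ`: helper97 (export file `Api.lean`), verbatim.
STATUS: this file is sorry-free (proved from the imported statements).

RECIPE `G4-EXT`.
* `geod_exists_uniform`: `CMfd.exists_finite_cover`: `K ⊆ ⋃ Φ i '' ball 0 (r i)`, `Φ i` holomorphic on `ball 0 (2 r i)`.  For each `i`: `closedBall 0 (r i)` is a compact subset of the domain; chart level uniform existence time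
  (`BP-G1`, `RGeo/Exp.lean`: for a compact `K' ⊆ S.U` and `R` there is `δ > 0` such that the geodesic with data `(z, a)`, `z ∈ K'`, `nrm z a ≤ R`, exists on `Ioo (-δ) δ`; underlying fact: `ODE.exists_pos_forall_mem_dom` on the compact set
  `K' ×ˢ closedBall 0 (R/m)`, `IsRiem.exists_bounds`).  `δ := min_i δ_i` (`Finset.exists_min_image` / induction; `m = 0` means `K = ∅`).  `x = Φ i z`, `v = dΦ_z a` (`CMfd.tangent_eq`), `ambQ_param`; `isGeodesic_of_isGeod`, `geod_deriv_comp`.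
* `geod_extend_right`: speed `k² := ambQ (γ t) (γ' t)` constant (`IsGeodesic.ambQ_const`); `δ` from `geod_exists_uniform K (R := k)` (`R ^ 2 = k²`: take `R = √k²`, `ambQ_nonneg`); `t₁ := max ((a + b)/2) (b - δ/2) ∈ Ioo a b`;
  `η` the geodesic on `Ioo (-δ) δ` with the data `(γ t₁, γ' t₁)`; `IsGeodesic.shift`: `t ↦ η (t - t₁)` on `Ioo (t₁ - δ) (t₁ + δ)`, its derivative at `t₁` is `η' 0` (`deriv_comp_sub_const`); `IsGeodesic.glue`;
  `max b (t₁ + δ) ≥ b + δ/2`, `min a (t₁ - δ) ≤ a`; `IsGeodesic.mono`.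
* `IsGeodesic.extend`: `geod_extend_right` for `γ` and for the reversed geodesic `t ↦ γ (a + b - t)` (`IsGeodesic.reverse`), then glue the two extensions at `t₀ = (a+b)/2` (they both coincide with `γ` on the open set `Ioo a b`, so the 1-jets agree:
  `Filter.EventuallyEq.deriv_eq`), `ε := min ε₁ ε₂`.

RECIPE `G4-UNIV`.
* `geod_union`: for `t` in the union choose (`Classical.choose`) `T t ∈ A` with `|t| < T t` and set `σ t := γ_{T t} t`.  For `T ∈ A`: `σ = γ_T` on `Ioo (-T) T` (two of the geodesics agree on the smaller interval by `IsGeodesic.eqOn` at `t₀ = 0`).  `IsGeodesic.of_local` + `IsGeodesic.congr`.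
  The 1-jet at `0`: `σ = γ_T` near `0`.
* `IsGeodesic.hdist_le`: see `Min.lean` (this file only uses its statement through `geod_mem_hcball`).
* `exists_geodesic_univ`: `A := {T > 0 | ∃ geodesic on Ioo (-T) T with the data (x, v)}` is nonempty (`exists_geodesic`).  If `A` is bounded above, `T* := sSup A`; `geod_union` gives a geodesic on `⋃_{T ∈ A} Ioo (-T) T = Ioo (-T*) T*`
  (`lt_csSup_iff`); it stays in `K = hcball x (k T*)`, `k = √(ambQ x v)` (`geod_mem_hcball`), compact by properness; `IsGeodesic.extend` gives `T* + ε ∈ A`: contradiction.  So `A` is unbounded and `⋃ = univ`.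
-/

set_option autoImplicit false
set_option linter.unusedSectionVars false
set_option linter.unusedVariables false
open scoped ContDiff ComplexOrder Topology

namespace Claimed.Agent.R316

variable {V : Type} [NormedAddCommGroup V] [NormedSpace ℝ V] [FiniteDimensional ℝ V]
variable {ι : Type} [Fintype ι] [DecidableEq ι]
variable {𝓜 : CMfd V ι} {h : HFam V ι} {γ γ' : ℝ → V}

/-! ### `G4-EXT` -/

/-- a finite family of positive numbers has a positive lower bound. -/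
theorem geod_exists_pos_le {m : ℕ} (d : Fin m → ℝ) (hd : ∀ i, 0 < d i) : ∃ δ > 0, ∀ i, δ ≤ d i := by
  rcases isEmpty_or_nonempty (Fin m) with hE | hN
  · exact ⟨1, one_pos, fun i => isEmptyElim i⟩
  · refine ⟨Finset.univ.inf' Finset.univ_nonempty d, ?_, fun i => Finset.inf'_le _ (Finset.mem_univ i)⟩
    exact (Finset.lt_inf'_iff _).2 fun i _ => hd i

/-- uniform existence time in one parametrisation. -/
theorem geod_exists_uniform_chart (hk : IsKahler 𝓜 h) {Φ : CE ι → V} {U : Set (CE ι)}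
    (hΦ : 𝓜.IsHol Φ U) {K' : Set (CE ι)} (hK' : IsCompact K') (hK'U : K' ⊆ U) (R : ℝ) :
    ∃ δ > 0, ∀ z ∈ K', ∀ a : CE ι, qf (h Φ z) a ≤ R ^ 2 →
      ∃ γ : ℝ → V, IsGeodesic 𝓜 h γ (Set.Ioo (-δ) δ) ∧ γ 0 = Φ z ∧ deriv γ 0 = fderiv ℝ Φ z a := by
  have hS := kgeo_isRiem hk hΦ
  obtain ⟨δ, hδ, H⟩ := hS.exists_uniform_time hK' hK'U |R|
  refine ⟨δ, hδ, fun z hz a ha => ?_⟩
  have hzU := hK'U hz
  have hn : (kgeo h Φ U).nrm z a ≤ |R| := by
    rw [kgeo_nrm, ← Real.sqrt_sq_eq_abs]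
    exact Real.sqrt_le_sqrt ha
  have hsub : Set.Ioo (-δ) δ ⊆ {t | (t, (z, a)) ∈ (kgeo h Φ U).gdm} := fun t ht =>
    RGeo.mem_expDom_iff.1 (H z hz a hn t (abs_le.2 ⟨ht.1.le, ht.2.le⟩))
  have h0 : (0 : ℝ) ∈ {t | (t, (z, a)) ∈ (kgeo h Φ U).gdm} := RGeo.zero_mem_gdm.2 hzU
  have hc := (hS.isGeod_gfl z a).mono hsub
  have hd := hS.hasDerivAt_gfl_fst h0
  rw [RGeo.gfl_zero] at hd
  have hc0 : ((kgeo h Φ U).gfl 0 (z, a)).1 = z := by rw [RGeo.gfl_zero]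
  refine ⟨Φ ∘ fun r => ((kgeo h Φ U).gfl r (z, a)).1, isGeodesic_of_isGeod hk hΦ isOpen_Ioo hc, ?_, ?_⟩
  · show Φ ((kgeo h Φ U).gfl 0 (z, a)).1 = Φ z
    rw [hc0]
  · rw [geod_deriv_comp hΦ hd.differentiableAt (by rw [hc0]; exact hzU), hd.deriv, hc0]

/-- uniform existence time for initial points in a compact set and bounded initial velocities. -/
theorem geod_exists_uniform (hk : IsKahler 𝓜 h) {K : Set V} (hK : IsCompact K)
    (hKM : K ⊆ 𝓜.carrier) (R : ℝ) :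
    ∃ δ > 0, ∀ x ∈ K, ∀ v ∈ 𝓜.tangent x, ambQ 𝓜 h x v ≤ R ^ 2 →
      ∃ γ : ℝ → V, IsGeodesic 𝓜 h γ (Set.Ioo (-δ) δ) ∧ γ 0 = x ∧ deriv γ 0 = v := by
  obtain ⟨m, Φ, r, hr, hΦ, hcov⟩ := 𝓜.exists_finite_cover hK hKM
  have hsub : ∀ i, Metric.closedBall (0 : CE ι) (r i) ⊆ Metric.ball 0 (2 * r i) := fun i =>
    Metric.closedBall_subset_ball (by linarith [hr i])
  choose d hd Hd using fun i =>
    geod_exists_uniform_chart hk (hΦ i) (isCompact_closedBall (0 : CE ι) (r i)) (hsub i) R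
  obtain ⟨δ, hδ, hle⟩ := geod_exists_pos_le d hd
  refine ⟨δ, hδ, fun x hx v hv hq => ?_⟩
  obtain ⟨i, z, hz, rfl⟩ := Set.mem_iUnion.1 (hcov hx)
  have hz' := Metric.ball_subset_closedBall hz
  rw [CMfd.tangent_eq (hΦ i) (hsub i hz')] at hv
  obtain ⟨a, rfl⟩ := hv
  rw [ambQ_param hk.toIsHForm (hΦ i) (hsub i hz')] at hq
  obtain ⟨γ, hγ, h0, h1⟩ := Hd i z hz' a hq
  exact ⟨γ, hγ.mono fun t ht => ⟨by linarith [ht.1, hle i], by linarith [ht.2, hle i]⟩, h0, h1⟩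

/-- extension beyond the right end point. -/
theorem geod_extend_right (hk : IsKahler 𝓜 h) {a b : ℝ} (hab : a < b)
    (hγ : IsGeodesic 𝓜 h γ (Set.Ioo a b)) {K : Set V} (hK : IsCompact K) (hKM : K ⊆ 𝓜.carrier)
    (hmem : ∀ t ∈ Set.Ioo a b, γ t ∈ K) :
    ∃ (γ' : ℝ → V) (ε : ℝ), 0 < ε ∧ IsGeodesic 𝓜 h γ' (Set.Ioo a (b + ε)) ∧
      Set.EqOn γ γ' (Set.Ioo a b) := by
  have hm := hk.toIsMetric
  have hmid : (a + b) / 2 ∈ Set.Ioo a b := ⟨by linarith, by linarith⟩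
  obtain ⟨δ, hδ, H⟩ := geod_exists_uniform hk hK hKM
    (Real.sqrt (ambQ 𝓜 h (γ ((a + b) / 2)) (deriv γ ((a + b) / 2))))
  rw [Real.sq_sqrt (ambQ_nonneg hm (hγ.2.1 _ hmid) _)] at H
  have ht₁ : max ((a + b) / 2) (b - δ / 2) ∈ Set.Ioo a b :=
    ⟨lt_max_of_lt_left hmid.1, max_lt hmid.2 (by linarith)⟩
  have ht₁' : b - δ / 2 ≤ max ((a + b) / 2) (b - δ / 2) := le_max_right _ _
  generalize max ((a + b) / 2) (b - δ / 2) = t₁ at ht₁ ht₁'
  obtain ⟨η, hη, hη0, hη1⟩ := H (γ t₁) (hmem t₁ ht₁) (deriv γ t₁)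
    (hγ.deriv_mem_tangent isOpen_Ioo ht₁) (hγ.ambQ_const hk ht₁ hmid).le
  have hshift := hη.shift (-t₁)
  have hd : deriv (fun t => η (t + -t₁)) t₁ = deriv η 0 := by
    have := deriv_comp_add_const (f := η) (-t₁) t₁
    simpa using this
  obtain ⟨σ, hσ, hσγ, -⟩ := hγ.glue hk hshift ht₁ ⟨by linarith, by linarith⟩
    (by simp [hη0]) (by rw [hd, hη1])
  refine ⟨σ, δ / 2, by linarith, hσ.mono fun t ht => ⟨?_, ?_⟩, fun t ht => (hσγ ht).symm⟩
  · exact (min_le_left _ _).trans_lt ht.1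
  · exact lt_of_lt_of_le (by linarith [ht.2]) (le_max_right _ _)

/-- a geodesic which stays in a compact set extends beyond its end points. -/
theorem IsGeodesic.extend (hk : IsKahler 𝓜 h) {a b : ℝ} (hab : a < b)
    (hγ : IsGeodesic 𝓜 h γ (Set.Ioo a b)) {K : Set V} (hK : IsCompact K) (hKM : K ⊆ 𝓜.carrier)
    (hmem : ∀ t ∈ Set.Ioo a b, γ t ∈ K) :
    ∃ (γ' : ℝ → V) (ε : ℝ), 0 < ε ∧ IsGeodesic 𝓜 h γ' (Set.Ioo (a - ε) (b + ε)) ∧
      Set.EqOn γ γ' (Set.Ioo a b) := by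
  obtain ⟨γ₁, ε₁, hε₁, hγ₁, he₁⟩ := geod_extend_right hk hab hγ hK hKM hmem
  have hrev : IsGeodesic 𝓜 h (fun t => γ (a + b - t)) (Set.Ioo a b) :=
    (hγ.reverse (a + b)).mono fun t ht => ⟨by linarith [ht.1], by linarith [ht.2]⟩
  obtain ⟨γ₂, ε₂, hε₂, hγ₂, he₂⟩ := geod_extend_right hk hab hrev hK hKM
    (fun t ht => hmem _ ⟨by linarith [ht.2], by linarith [ht.1]⟩)
  have hγ₃ : IsGeodesic 𝓜 h (fun t => γ₂ (a + b - t)) (Set.Ioo (a - ε₂) b) :=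
    (hγ₂.reverse (a + b)).mono fun t ht => ⟨by linarith [ht.1], by linarith [ht.2]⟩
  have he₃ : Set.EqOn (fun t => γ₂ (a + b - t)) γ (Set.Ioo a b) := by
    intro t ht
    show γ₂ (a + b - t) = γ t
    rw [← he₂ ⟨by linarith [ht.2], by linarith [ht.1]⟩]
    show γ (a + b - (a + b - t)) = γ t
    congr 1
    ring
  have hmid : (a + b) / 2 ∈ Set.Ioo a b := ⟨by linarith, by linarith⟩
  obtain ⟨σ, hσ, hσ₃, -⟩ := hγ₃.glue_of_eventuallyEq hk hγ₁ (t₀ := (a + b) / 2)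
    ⟨by linarith [hmid.1], hmid.2⟩ ⟨hmid.1, by linarith [hmid.2]⟩ (by
      filter_upwards [isOpen_Ioo.mem_nhds hmid] with t ht
      exact (he₃ ht).trans (he₁ ht))
  refine ⟨σ, min ε₁ ε₂, lt_min hε₁ hε₂, hσ.mono fun t ht => ⟨?_, ?_⟩, fun t ht => ?_⟩
  · exact lt_of_le_of_lt (min_le_left _ _) (by linarith [ht.1, min_le_right ε₁ ε₂])
  · exact lt_of_lt_of_le (by linarith [ht.2, min_le_left ε₁ ε₂]) (le_max_right _ _)
  · rw [hσ₃ ⟨by linarith [ht.1], ht.2⟩, he₃ ht]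

/-! ### `G4-UNIV` -/

/-- union of geodesics with the same initial data on symmetric intervals. -/
theorem geod_union (hk : IsKahler 𝓜 h) {x v : V} {A : Set ℝ} (hne : A.Nonempty)
    (hA : ∀ T ∈ A, 0 < T ∧ ∃ γ : ℝ → V, IsGeodesic 𝓜 h γ (Set.Ioo (-T) T) ∧ γ 0 = x ∧ deriv γ 0 = v) :
    ∃ σ : ℝ → V, IsGeodesic 𝓜 h σ (⋃ T ∈ A, Set.Ioo (-T) T) ∧ σ 0 = x ∧ deriv σ 0 = v := by
  classical
  choose! G hG using fun T hT => (hA T hT).2
  have hcomp : ∀ T ∈ A, ∀ T' ∈ A, ∀ t, t ∈ Set.Ioo (-T) T → t ∈ Set.Ioo (-T') T' → G T t = G T' t := by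
    intro T hT T' hT' t ht ht'
    have h1 : IsGeodesic 𝓜 h (G T) (Set.Ioo (-min T T') (min T T')) := (hG T hT).1.mono fun r hr =>
      ⟨by linarith [hr.1, min_le_left T T'], by linarith [hr.2, min_le_left T T']⟩
    have h2 : IsGeodesic 𝓜 h (G T') (Set.Ioo (-min T T') (min T T')) := (hG T' hT').1.mono fun r hr =>
      ⟨by linarith [hr.1, min_le_right T T'], by linarith [hr.2, min_le_right T T']⟩
    have hpos : 0 < min T T' := lt_min (hA T hT).1 (hA T' hT').1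
    refine h1.eqOn hk h2 (t₀ := 0) ⟨by linarith, hpos⟩ ?_ ?_ ⟨?_, lt_min ht.2 ht'.2⟩
    · rw [(hG T hT).2.1, (hG T' hT').2.1]
    · rw [(hG T hT).2.2, (hG T' hT').2.2]
    · rcases min_choice T T' with h' | h' <;> rw [h']
      · exact ht.1
      · exact ht'.1
  set σ : ℝ → V := fun t => if H : ∃ T ∈ A, t ∈ Set.Ioo (-T) T then G H.choose t else x with hσ
  have hσG : ∀ T ∈ A, Set.EqOn σ (G T) (Set.Ioo (-T) T) := by
    intro T hT t ht
    have H : ∃ T ∈ A, t ∈ Set.Ioo (-T) T := ⟨T, hT, ht⟩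
    show (if H : ∃ T ∈ A, t ∈ Set.Ioo (-T) T then G H.choose t else x) = G T t
    rw [dif_pos H]
    exact hcomp _ H.choose_spec.1 T hT t H.choose_spec.2 ht
  obtain ⟨T₀, hT₀⟩ := hne
  have h0 : (0 : ℝ) ∈ Set.Ioo (-T₀) T₀ := ⟨by linarith [(hA T₀ hT₀).1], (hA T₀ hT₀).1⟩
  refine ⟨σ, IsGeodesic.of_local fun t ht => ?_, ?_, ?_⟩
  · obtain ⟨T, hT, htT⟩ := Set.mem_iUnion₂.1 ht
    exact ⟨Set.Ioo (-T) T, isOpen_Ioo, htT, (hG T hT).1.congr (hσG T hT)⟩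
  · rw [hσG T₀ hT₀ h0, (hG T₀ hT₀).2.1]
  · rw [← (hG T₀ hT₀).2.2]
    apply Filter.EventuallyEq.deriv_eq
    filter_upwards [isOpen_Ioo.mem_nhds h0] with t ht using hσG T₀ hT₀ ht

/-- a geodesic does not run faster than its speed. -/
theorem IsGeodesic.hdist_le (hk : IsKahler 𝓜 h) {a b : ℝ} (hγ : IsGeodesic 𝓜 h γ (Set.Ioo a b))
    {s t : ℝ} (hs : s ∈ Set.Ioo a b) (ht : t ∈ Set.Ioo a b) :
    hdist 𝓜 h (γ s) (γ t) ≤ Real.sqrt (ambQ 𝓜 h (γ s) (deriv γ s)) * |s - t| := by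
  have hm := hk.toIsMetric
  have key : ∀ s ∈ Set.Ioo a b, ∀ t ∈ Set.Ioo a b, s ≤ t →
      hdist 𝓜 h (γ s) (γ t) ≤ Real.sqrt (ambQ 𝓜 h (γ s) (deriv γ s)) * |s - t| := by
    intro s hs t ht hst
    rcases hst.eq_or_lt with rfl | hlt
    · rw [hdist_self (hγ.2.1 s hs)]
      simp
    have hsub : Set.Icc s t ⊆ Set.Ioo a b := fun r hr => ⟨hs.1.trans_le hr.1, hr.2.trans_lt ht.2⟩
    have h1 := hdist_le_integral_of_contDiffOn hm hst ((hγ.1.mono hsub).of_le (by simp))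
      (fun r hr => hγ.2.1 r (hsub hr))
    have h2 : ∫ r in s..t, Real.sqrt (ambQ 𝓜 h (γ r) (derivWithin γ (Set.Icc s t) r)) =
        ∫ r in s..t, Real.sqrt (ambQ 𝓜 h (γ s) (deriv γ s)) := by
      refine intervalIntegral.integral_congr fun r hr => ?_
      rw [Set.uIcc_of_le hst] at hr
      show Real.sqrt (ambQ 𝓜 h (γ r) (derivWithin γ (Set.Icc s t) r)) = _
      rw [(hγ.differentiableAt isOpen_Ioo (hsub hr)).derivWithin (uniqueDiffOn_Icc hlt r hr),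
        hγ.ambQ_const hk (hsub hr) hs]
    rw [h2, intervalIntegral.integral_const, smul_eq_mul] at h1
    rw [abs_sub_comm, abs_of_pos (sub_pos.2 hlt), mul_comm]
    exact h1
  rcases le_total s t with hst | hst
  · exact key s hs t ht hst
  · rw [hdist_comm hm, abs_sub_comm, hγ.ambQ_const hk hs ht]
    exact key t ht s hs hst

theorem geod_mem_hcball (hk : IsKahler 𝓜 h) {T : ℝ} (hγ : IsGeodesic 𝓜 h γ (Set.Ioo (-T) T)) {t : ℝ}
    (ht : t ∈ Set.Ioo (-T) T) :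
    γ t ∈ hcball 𝓜 h (γ 0) (Real.sqrt (ambQ 𝓜 h (γ 0) (deriv γ 0)) * T) := by
  have h0 : (0 : ℝ) ∈ Set.Ioo (-T) T := ⟨by linarith [ht.1, ht.2], by linarith [ht.1, ht.2]⟩
  refine ⟨hγ.2.1 t ht, (hγ.hdist_le hk h0 ht).trans ?_⟩
  refine mul_le_mul_of_nonneg_left ?_ (Real.sqrt_nonneg _)
  rw [zero_sub, abs_neg, abs_le]
  exact ⟨ht.1.le, ht.2.le⟩

/-- geodesic completeness of proper metrics. -/
theorem exists_geodesic_univ (hk : IsKahler 𝓜 h) (hconn : IsConnected 𝓜.carrier)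
    (hp : IsProperMetric 𝓜 h) {x v : V} (hx : x ∈ 𝓜.carrier) (hv : v ∈ 𝓜.tangent x) :
    ∃ γ : ℝ → V, IsGeodesic 𝓜 h γ Set.univ ∧ γ 0 = x ∧ deriv γ 0 = v := by
  set A : Set ℝ := {T | 0 < T ∧ ∃ γ : ℝ → V, IsGeodesic 𝓜 h γ (Set.Ioo (-T) T) ∧ γ 0 = x ∧
    deriv γ 0 = v} with hAdef
  have hne : A.Nonempty := by
    obtain ⟨γ, ε, hε, hγ, h0, h1⟩ := exists_geodesic hk hx hv
    exact ⟨ε, hε, γ, hγ, h0, h1⟩
  obtain ⟨σ, hσ, hσ0, hσ1⟩ := geod_union hk hne (fun T hT => hT)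
  have hunb : ¬ BddAbove A := by
    intro hb
    obtain ⟨T₀, hT₀⟩ := hne
    have hpos : 0 < sSup A := hT₀.1.trans_le (le_csSup hb hT₀)
    have hσ' : IsGeodesic 𝓜 h σ (Set.Ioo (-sSup A) (sSup A)) := by
      refine hσ.mono fun t ht => ?_
      have : |t| < sSup A := abs_lt.2 ht
      obtain ⟨T, hT, htT⟩ := exists_lt_of_lt_csSup ⟨T₀, hT₀⟩ this
      exact Set.mem_iUnion₂.2 ⟨T, hT, abs_lt.1 htT⟩
    obtain ⟨σ₂, ε, hε, hσ₂, he⟩ := hσ'.extend hk (by linarith) (hp (σ 0) (hσ0 ▸ hx) _)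
      (hcball_subset_carrier _ _ _ _) (fun t ht => geod_mem_hcball hk hσ' ht)
    have h0 : (0 : ℝ) ∈ Set.Ioo (-sSup A) (sSup A) := ⟨by linarith, hpos⟩
    have hmem : sSup A + ε ∈ A := by
      refine ⟨by linarith, σ₂, hσ₂.mono fun t ht => ⟨by linarith [ht.1], ht.2⟩, ?_, ?_⟩
      · rw [← he h0, hσ0]
      · rw [← hσ1]
        apply Filter.EventuallyEq.deriv_eq
        filter_upwards [isOpen_Ioo.mem_nhds h0] with t ht using (he ht).symm
    have := le_csSup hb hmem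
    linarith
  refine ⟨σ, hσ.mono fun t _ => ?_, hσ0, hσ1⟩
  obtain ⟨T, hT, htT⟩ := not_bddAbove_iff.1 hunb |t|
  exact Set.mem_iUnion₂.2 ⟨T, hT, abs_lt.1 htT⟩

end Claimed.Agent.R316
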