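import Claimed.Agent.R316.Pack015_2
import Claimed.Agent.R316.Base.Geod.Basic
import Claimed.Agent.R316.Base.Metric.Api
import Claimed.Agent.R316.Base.RGeo.Kahler

/-!
# Row 316 base layer, `BP-G4`, leaf `G4-LOC`: locality of `IsGeodesic`, geodesics in one parametrisation

Sub-captain of `BP-G4`: helper256.  NO closedness of the carrier anywhere in `Base/Geod/` (the package is used for balls with pulled back metrics).
STATUS: this file is sorry-free (proved from the imported statements of `BP-G1`, `CM`, `BP-G0`).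

RECIPE.
* `IsGeodesic.congr`: unfold; `ContDiffOn.congr`; in the chart clause `Φ (c t) = γ' t = γ t`.
* `IsGeodesic.of_local`: `ContDiffOn`: at `t ∈ I` take `J`; `(hJ.1).contDiffAt (J ∈ 𝓝 t)`.  Chart clause for `(c, I')`: for `t ∈ I'` apply the chart clause of `J` to `(c, J ∩ I')`;
  `IsGeod c (J ∩ I')` gives `ContDiffAt c t` (open set) and `covD = 0` at `t`.
* `IsGeodesic.coord`: the chart clause with `c := invFunOn Φ U ∘ γ`, `I' := I` (`IsParam.invFunOn_mem`, `IsParam.rightInv`); the velocity: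
  `IsParam.hasFDerivAt_invFunOn_comp` (`fderiv ℝ γ t 1 = deriv γ t`), the carrier condition holds near `t` because `I` is open.
* `isGeodesic_of_isGeod`: smoothness: `Φ` smooth on `U` (`IsParam.smooth`), `ContDiffOn.comp`.  Chart clause for `(Ψ, W, e, I')`: on `I'`, `e = τ ∘ c`, `τ = invFunOn Ψ W ∘ Φ` (`CMfd.trans_eq`), `c t ∈ U ∩ Φ ⁻¹' (Ψ '' W)`.
  The transition `τ` is a local isometry `IsIsom ((kgeo h Φ U).restr (U ∩ Φ ⁻¹' (Ψ '' W))) (kgeo h Ψ W) τ` (`RGeo/Kahler.lean` of `BP-G1`), so `RGeo.IsIsom.isGeod` applies; `RGeo.IsGeod` of a restriction is `IsGeod` + values in the smaller set;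
  finally `IsGeod` only depends on the germ of the curve on the open set `I'` (`covD_congr`, `ContDiffOn.congr`).
  (Alternative without `BP-G1`: `chris_trans` of `Base/Tub/Spray.lean`, second derivative of `τ ∘ c`.)
-/

set_option autoImplicit false
set_option linter.unusedSectionVars false
set_option linter.unusedVariables false
open scoped ContDiff ComplexOrder Topology

namespace Claimed.Agent.R316

variable {V : Type} [NormedAddCommGroup V] [NormedSpace ℝ V] [FiniteDimensional ℝ V]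
variable {ι : Type} [Fintype ι] [DecidableEq ι]
variable {𝓜 : CMfd V ι} {h : HFam V ι} {γ γ' : ℝ → V} {I J : Set ℝ}
variable {Φ : CE ι → V} {U : Set (CE ι)}

/-- `IsGeodesic` only depends on the values of the curve on `I`. -/
theorem IsGeodesic.congr (hγ : IsGeodesic 𝓜 h γ I) (he : Set.EqOn γ' γ I) : IsGeodesic 𝓜 h γ' I :=
  ⟨hγ.1.congr he, fun t ht => he ht ▸ hγ.2.1 t ht, fun Φ U hΦ c I' hI' hI'o hc =>
    hγ.2.2 Φ U hΦ c I' hI' hI'o fun t ht => ⟨(hc t ht).1, (hc t ht).2.trans (he (hI' ht))⟩⟩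

/-- locality. -/
theorem IsGeodesic.of_local
    (H : ∀ t ∈ I, ∃ J : Set ℝ, IsOpen J ∧ t ∈ J ∧ IsGeodesic 𝓜 h γ J) : IsGeodesic 𝓜 h γ I := by
  refine ⟨fun t ht => ?_, fun t ht => ?_, fun Φ U hΦ c I' hI' hI'o hc => ?_⟩
  · obtain ⟨J, hJo, htJ, hJ⟩ := H t ht
    exact (hJ.1.contDiffAt (hJo.mem_nhds htJ)).contDiffWithinAt
  · obtain ⟨J, hJo, htJ, hJ⟩ := H t ht
    exact hJ.2.1 t htJ
  · refine RGeo.isGeod_of_local fun t ht => ?_
    obtain ⟨J, hJo, htJ, hJ⟩ := H t (hI' ht)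
    exact ⟨J ∩ I', hJo.inter hI'o, ⟨htJ, ht⟩,
      hJ.2.2 Φ U hΦ c (J ∩ I') Set.inter_subset_left (hJo.inter hI'o) fun s hs => hc s hs.2⟩

theorem IsGeodesic.union (hI : IsOpen I) (hJ : IsOpen J) (h₁ : IsGeodesic 𝓜 h γ I)
    (h₂ : IsGeodesic 𝓜 h γ J) : IsGeodesic 𝓜 h γ (I ∪ J) := by
  refine IsGeodesic.of_local fun t ht => ?_
  rcases ht with ht | ht
  · exact ⟨I, hI, ht, h₁⟩
  · exact ⟨J, hJ, ht, h₂⟩

theorem IsGeodesic.contDiffAt (hI : IsOpen I) (hγ : IsGeodesic 𝓜 h γ I) {t : ℝ} (ht : t ∈ I) :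
    ContDiffAt ℝ ∞ γ t := hγ.1.contDiffAt (hI.mem_nhds ht)

theorem IsGeodesic.differentiableAt (hI : IsOpen I) (hγ : IsGeodesic 𝓜 h γ I) {t : ℝ} (ht : t ∈ I) :
    DifferentiableAt ℝ γ t := (hγ.contDiffAt hI ht).differentiableAt (by simp)

theorem IsGeodesic.eventually_mem (hI : IsOpen I) (hγ : IsGeodesic 𝓜 h γ I) {t : ℝ} (ht : t ∈ I) :
    ∀ᶠ s in 𝓝 t, γ s ∈ 𝓜.carrier := by
  filter_upwards [hI.mem_nhds ht] with s hs using hγ.2.1 s hs

theorem IsGeodesic.deriv_mem_tangent (hI : IsOpen I) (hγ : IsGeodesic 𝓜 h γ I) {t : ℝ}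
    (ht : t ∈ I) : deriv γ t ∈ 𝓜.tangent (γ t) :=
  CMfd.deriv_mem_tangent (hγ.differentiableAt hI ht) (hγ.eventually_mem hI ht)

/-- the velocity is smooth. -/
theorem IsGeodesic.contDiffOn_deriv (hI : IsOpen I) (hγ : IsGeodesic 𝓜 h γ I) :
    ContDiffOn ℝ ∞ (deriv γ) I :=
  hγ.1.deriv_of_isOpen hI (by simp)

/-- the coordinate curve of a geodesic which stays in the image of one parametrisation. -/
theorem IsGeodesic.coord (hI : IsOpen I) (hγ : IsGeodesic 𝓜 h γ I) (hΦ : 𝓜.IsHol Φ U)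
    (hsub : ∀ t ∈ I, γ t ∈ Φ '' U) :
    (kgeo h Φ U).IsGeod (Function.invFunOn Φ U ∘ γ) I ∧
    ∀ t ∈ I, (Function.invFunOn Φ U ∘ γ) t ∈ U ∧ Φ ((Function.invFunOn Φ U ∘ γ) t) = γ t ∧
      deriv γ t = fderiv ℝ Φ ((Function.invFunOn Φ U ∘ γ) t)
        (deriv (Function.invFunOn Φ U ∘ γ) t) := by
  have hp := 𝓜.isParam hΦ
  have hc : ∀ t ∈ I, (Function.invFunOn Φ U ∘ γ) t ∈ U ∧ Φ ((Function.invFunOn Φ U ∘ γ) t) = γ t :=
    fun t ht => ⟨hp.invFunOn_mem (hsub t ht), hp.rightInv (hsub t ht)⟩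
  refine ⟨hγ.2.2 Φ U hΦ _ I subset_rfl hI hc, fun t ht => ⟨(hc t ht).1, (hc t ht).2, ?_⟩⟩
  have := (hp.hasFDerivAt_invFunOn_comp (hγ.differentiableAt hI ht) (hγ.eventually_mem hI ht)
    (hsub t ht)).2 1
  rwa [fderiv_apply_one_eq_deriv, fderiv_apply_one_eq_deriv] at this

/-- the speed in coordinates. -/
theorem IsGeodesic.ambQ_coord (hm : IsHForm 𝓜 h) (hI : IsOpen I) (hγ : IsGeodesic 𝓜 h γ I)
    (hΦ : 𝓜.IsHol Φ U) (hsub : ∀ t ∈ I, γ t ∈ Φ '' U) {t : ℝ} (ht : t ∈ I) :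
    ambQ 𝓜 h (γ t) (deriv γ t) =
      qf (h Φ ((Function.invFunOn Φ U ∘ γ) t)) (deriv (Function.invFunOn Φ U ∘ γ) t : CE ι) := by
  obtain ⟨-, H⟩ := hγ.coord hI hΦ hsub
  obtain ⟨h1, h2, h3⟩ := H t ht
  rw [h3, ← h2, ambQ_param hm hΦ h1]

/-- a geodesic of one chart is a geodesic of the manifold. -/
theorem isGeodesic_of_isGeod (hk : IsKahler 𝓜 h) (hΦ : 𝓜.IsHol Φ U) (hI : IsOpen I) {c : ℝ → CE ι}
    (hc : (kgeo h Φ U).IsGeod c I) : IsGeodesic 𝓜 h (Φ ∘ c) I := by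
  have hp := 𝓜.isParam hΦ
  refine ⟨hp.smooth.comp hc.1 hc.2.1, fun t ht => CMfd.mem_carrier hΦ (hc.2.1 t ht), ?_⟩
  intro Ψ W hΨ e I' hI' hI'o he
  have hov := CMfd.isOpen_overlap hΦ hΨ
  have hΦ' : 𝓜.IsHol Φ (U ∩ Φ ⁻¹' (Ψ '' W)) := 𝓜.isHol_mono hΦ hov Set.inter_subset_left
  have hcU : ∀ t ∈ I', c t ∈ U ∩ Φ ⁻¹' (Ψ '' W) := fun t ht =>
    ⟨hc.2.1 t (hI' ht), e t, (he t ht).1, (he t ht).2⟩
  have hc' : (kgeo h Φ (U ∩ Φ ⁻¹' (Ψ '' W))).IsGeod c I' :=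
    ⟨hc.1.mono hI', hcU, fun t ht => hc.2.2 t (hI' ht)⟩
  have h1 := (isIsom_trans hk.toIsHForm hΦ hΨ).isGeod (kgeo_isRiem hk hΦ') (kgeo_isRiem hk hΨ) hI'o hc'
  refine geod_isGeod_congr hI'o h1 fun t ht => ?_
  exact (CMfd.trans_eq hΦ hΨ (he t ht).1 (he t ht).2.symm).symm

/-- velocity of `Φ ∘ c`. -/
theorem geod_deriv_comp (hΦ : 𝓜.IsHol Φ U) {c : ℝ → CE ι} {t : ℝ} (hc : DifferentiableAt ℝ c t)
    (hcU : c t ∈ U) : deriv (Φ ∘ c) t = fderiv ℝ Φ (c t) (deriv c t) := by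
  have h1 := ((𝓜.isParam hΦ).differentiableAt hcU).hasFDerivAt.comp_hasDerivAt t hc.hasDerivAt
  exact h1.deriv

end Claimed.Agent.R316
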