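import Claimed.Agent.R316.Base.Geod.Speed
import Claimed.Agent.R316.Base.Geod.Ext

/-!
# Row 316 base layer, `BP-G4`, leaf `G4-MIN`: elementary API of `IsMinGeod`

Sub-captain of `BP-G4`: helper256.  Statements of `IsMinGeod.*`: helper97 (export file `Api.lean`), verbatim.
STATUS: this file is sorry-free (proved from the imported statements).

RECIPE.
* `IsGeodesic.hdist_le` (MOVED to `Ext.lean`): w.l.o.g. `s ≤ t` (`hdist_comm`, `IsGeodesic.ambQ_const`).  `hdist_le_integral_of_contDiffOn` on `Icc s t ⊆ Ioo a b`; for `r ∈ Ioo s t`, `derivWithin γ (Icc s t) r = deriv γ r` (`derivWithin_of_mem_nhds`), the integrand is a.e.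
  (`intervalIntegral.integral_congr_ae`, or on `Ioo`: `integral_Ioc_eq_integral_Ioo`) the constant `k = √(ambQ (γ s) (γ' s))` (`IsGeodesic.ambQ_const`).  In fact at the end points also `derivWithin = deriv` (`DifferentiableAt.derivWithin`, `uniqueDiffOn_Icc`) if `s < t`.
* `isMinGeod_of_unit`: for `0 ≤ s ≤ t ≤ l`: `l = d(γ 0, γ l) ≤ d(γ 0,γ s) + d(γ s,γ t) + d(γ t,γ l) ≤ s + d(γ s,γ t) + (l - t)` and `d(γ s,γ t) ≤ t - s` (`IsGeodesic.hdist_le`, `hdist_triangle`); symmetric case by `hdist_comm`.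
* `IsMinGeod.ambQ_eq_one`: by `IsGeodesic.ambQ_const` it is enough to treat `t = 0`; `geod_speed_of_isometric` with `t₀ = 0` (`hd`: for `t ∈ Ioo 0 l`, `d(γ 0,γ t) = |0 - t| = t`).
* `sub`, `reverse`: `IsGeodesic.shift`, `IsGeodesic.reverse`, `IsGeodesic.mono`, `hdist_comm`; arithmetic of `|·|`.
-/

set_option autoImplicit false
set_option linter.unusedSectionVars false
set_option linter.unusedVariables false
open scoped ContDiff ComplexOrder Topology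

namespace Claimed.Agent.R316

variable {V : Type} [NormedAddCommGroup V] [NormedSpace ℝ V] [FiniteDimensional ℝ V]
variable {ι : Type} [Fintype ι] [DecidableEq ι]
variable {𝓜 : CMfd V ι} {h : HFam V ι} {γ : ℝ → V} {x y o : V} {l : ℝ}

/-- a unit speed geodesic whose length is the distance of its end points is minimizing. -/
theorem isMinGeod_of_unit (hk : IsKahler 𝓜 h) (hconn : IsConnected 𝓜.carrier) {ε : ℝ} (hε : 0 < ε)
    (hl : 0 ≤ l) (hγ : IsGeodesic 𝓜 h γ (Set.Ioo (-ε) (l + ε)))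
    (hu : ambQ 𝓜 h (γ 0) (deriv γ 0) = 1) (hd : hdist 𝓜 h (γ 0) (γ l) = l) :
    IsMinGeod 𝓜 h γ (γ 0) (γ l) l := by
  have hm := hk.toIsMetric
  have h0I : (0 : ℝ) ∈ Set.Ioo (-ε) (l + ε) := ⟨by linarith, by linarith⟩
  have hsub : Set.Icc 0 l ⊆ Set.Ioo (-ε) (l + ε) := fun t ht => ⟨by linarith [ht.1], by linarith [ht.2]⟩
  have hle : ∀ s ∈ Set.Icc 0 l, ∀ t ∈ Set.Icc 0 l, hdist 𝓜 h (γ s) (γ t) ≤ |s - t| := by
    intro s hs t ht
    have := hγ.hdist_le hk (hsub hs) (hsub ht)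
    rwa [hγ.ambQ_const hk (hsub hs) h0I, hu, Real.sqrt_one, one_mul] at this
  have key : ∀ s ∈ Set.Icc 0 l, ∀ t ∈ Set.Icc 0 l, s ≤ t → hdist 𝓜 h (γ s) (γ t) = |s - t| := by
    intro s hs t ht hst
    refine le_antisymm (hle s hs t ht) ?_
    have h0 : (0 : ℝ) ∈ Set.Icc 0 l := ⟨le_rfl, hl⟩
    have h1 : l ∈ Set.Icc 0 l := ⟨hl, le_rfl⟩
    have u1 := hdist_triangle hm hconn (hγ.2.1 0 (hsub h0)) (hγ.2.1 s (hsub hs)) (hγ.2.1 l (hsub h1))
    have u2 := hdist_triangle hm hconn (hγ.2.1 s (hsub hs)) (hγ.2.1 t (hsub ht)) (hγ.2.1 l (hsub h1))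
    have u3 := hle 0 h0 s hs
    have u4 := hle t ht l h1
    rw [zero_sub, abs_neg, abs_of_nonneg hs.1] at u3
    rw [abs_sub_comm, abs_of_nonneg (sub_nonneg.2 ht.2)] at u4
    rw [abs_sub_comm, abs_of_nonneg (sub_nonneg.2 hst)]
    linarith
  refine ⟨⟨ε, hε, hγ⟩, rfl, rfl, hd.symm, fun s hs t ht => ?_⟩
  rcases le_total s t with hst | hst
  · exact key s hs t ht hst
  · rw [hdist_comm hm, abs_sub_comm]
    exact key t ht s hs hst

/-- unit speed. -/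
theorem IsMinGeod.ambQ_eq_one (hk : IsKahler 𝓜 h) (hγ : IsMinGeod 𝓜 h γ x y l) (hl : 0 < l) {t : ℝ}
    (ht : t ∈ Set.Icc 0 l) : ambQ 𝓜 h (γ t) (deriv γ t) = 1 := by
  obtain ⟨⟨ε, hε, hg⟩, -, -, -, hd⟩ := hγ
  have h0I : (0 : ℝ) ∈ Set.Ioo (-ε) (l + ε) := ⟨by linarith, by linarith⟩
  rw [hg.ambQ_const hk ⟨by linarith [ht.1], by linarith [ht.2]⟩ h0I]
  refine geod_speed_of_isometric hk.toIsMetric (hg.differentiableAt isOpen_Ioo h0I)
    (hg.eventually_mem isOpen_Ioo h0I) ?_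
  filter_upwards [Ioo_mem_nhdsGT hl] with r hr
  rw [hd 0 ⟨le_rfl, hl.le⟩ r ⟨hr.1.le, hr.2.le⟩, abs_sub_comm, abs_of_pos (by linarith [hr.1])]

theorem IsMinGeod.mem_carrier (hγ : IsMinGeod 𝓜 h γ x y l) {t : ℝ} (ht : t ∈ Set.Icc 0 l) :
    γ t ∈ 𝓜.carrier := by
  obtain ⟨⟨ε, hε, hg⟩, -⟩ := hγ
  exact hg.2.1 t ⟨by linarith [ht.1], by linarith [ht.2]⟩

theorem IsMinGeod.deriv_mem_tangent (hγ : IsMinGeod 𝓜 h γ x y l) {t : ℝ} (ht : t ∈ Set.Icc 0 l) :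
    deriv γ t ∈ 𝓜.tangent (γ t) := by
  obtain ⟨⟨ε, hε, hg⟩, -⟩ := hγ
  exact hg.deriv_mem_tangent isOpen_Ioo ⟨by linarith [ht.1], by linarith [ht.2]⟩

/-- sub-segments. -/
theorem IsMinGeod.sub (hk : IsKahler 𝓜 h) (hγ : IsMinGeod 𝓜 h γ x y l) {a b : ℝ} (ha : 0 ≤ a)
    (hab : a ≤ b) (hb : b ≤ l) : IsMinGeod 𝓜 h (fun t => γ (a + t)) (γ a) (γ b) (b - a) := by
  obtain ⟨⟨ε, hε, hg⟩, -, -, -, hd⟩ := hγ
  have haI : a ∈ Set.Icc 0 l := ⟨ha, hab.trans hb⟩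
  have hbI : b ∈ Set.Icc 0 l := ⟨ha.trans hab, hb⟩
  refine ⟨⟨ε, hε, ?_⟩, by simp, ?_, ?_, fun s hs t ht => ?_⟩
  · refine ((hg.shift a).mono fun t ht => ⟨by linarith [ht.1], by linarith [ht.2]⟩).congr
      fun t _ => ?_
    show γ (a + t) = γ (t + a)
    rw [add_comm]
  · show γ (a + (b - a)) = γ b
    congr 1
    ring
  · rw [hd a haI b hbI, abs_sub_comm, abs_of_nonneg (sub_nonneg.2 hab)]
  · show hdist 𝓜 h (γ (a + s)) (γ (a + t)) = _
    rw [hd (a + s) ⟨by linarith [hs.1], by linarith [hs.2]⟩ (a + t)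
      ⟨by linarith [ht.1], by linarith [ht.2]⟩]
    congr 1
    ring

/-- reversal. -/
theorem IsMinGeod.reverse (hk : IsKahler 𝓜 h) (hγ : IsMinGeod 𝓜 h γ x y l) :
    IsMinGeod 𝓜 h (fun t => γ (l - t)) y x l := by
  obtain ⟨⟨ε, hε, hg⟩, h0, h1, hl, hd⟩ := hγ
  refine ⟨⟨ε, hε, ?_⟩, by simpa using h1, by simpa using h0, ?_, fun s hs t ht => ?_⟩
  · exact (hg.reverse l).mono fun t ht => ⟨by linarith [ht.1], by linarith [ht.2]⟩
  · rw [hdist_comm hk.toIsMetric]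
    exact hl
  · show hdist 𝓜 h (γ (l - s)) (γ (l - t)) = _
    rw [hd (l - s) ⟨by linarith [hs.2], by linarith [hs.1]⟩ (l - t)
      ⟨by linarith [ht.2], by linarith [ht.1]⟩, abs_sub_comm]
    congr 1
    ring

/-- the constant minimizing geodesic. -/
theorem exists_minGeod_self (hk : IsKahler 𝓜 h) (hx : x ∈ 𝓜.carrier) :
    ∃ γ : ℝ → V, IsMinGeod 𝓜 h γ x x 0 := by
  have h0 : (0 : V) ∈ 𝓜.tangent x := ⟨0, map_zero _⟩
  obtain ⟨γ, ε, hε, hg, hγ0, -⟩ := exists_geodesic hk hx h0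
  refine ⟨γ, ⟨ε, hε, by simpa using hg⟩, hγ0, hγ0, (hdist_self hx).symm, ?_⟩
  intro s hs t ht
  have hs' : s = 0 := le_antisymm hs.2 hs.1
  have ht' : t = 0 := le_antisymm ht.2 ht.1
  rw [hs', ht', hγ0, hdist_self hx]
  simp

end Claimed.Agent.R316
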