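import Claimed.Agent.R316.Base.Geod.Uniq

/-!
# Row 316 base layer, `BP-G4`, leaf `G4-SPEED`: first order behaviour of `hdist` along curves; the NO CORNER lemma

Sub-captain of `BP-G4`: helper256.  Only `BP-G0` is used (`hdist_local_compare`): no geodesics, no exponential map.
STATUS: this file is sorry-free (proved from the imported statements).

RECIPE.
* `geod_tendsto_hdist_div`: `x = Φ z₀` (`𝓜.cover`).  `e_i := invFunOn Φ U ∘ c_i` is differentiable at `0`, `e_i 0 = z₀`, `deriv c_i 0 = dΦ_{z₀} (deriv e_i 0)` (`IsParam.hasFDerivAt_invFunOn_comp`), `Φ (e_i t) = c_i t` near `0`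
  (`IsParam.image` + continuity, as in `abs_deriv_comp_le` of `Metric/Norm.lean`).  `N v := √(qf (h Φ z₀) v)` is a continuous (`g0_continuous_qf`), positively homogeneous function (`qf_smul_vec`), so
  `N (e₁ t - e₂ t) / t = N ((e₁ t - e₂ t)/t) → N (e₁' 0 - e₂' 0)` as `t → 0+` (`HasDerivAt.tendsto_slope_zero_right`-type statement for `e₁ - e₂`, which vanishes at `0`).
  `ambQ x (c₁' - c₂') = qf (h Φ z₀) (e₁' - e₂')` (`ambQ_param`, `map_sub`).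
  For `ε > 0`, `hdist_local_compare` gives `(1 - ε) N(e₁ t - e₂ t) ≤ hdist (c₁ t) (c₂ t) ≤ (1 + ε) N(e₁ t - e₂ t)` for small `t`; conclude with `Metric.tendsto_nhds` / `tendsto_order`:
  with `L := N(e₁' - e₂')`: eventually `(1-ε)(L - ε) ≤ d/t ≤ (1+ε)(L+ε)`.
* `ambQ_parallelogram`: in the chosen parametrisation `g0_coVec_add`, `g0_coVec_smul`/`ambQ` of `a - b = a + (-1) • b`, `qf_add_vec` (`CW/MatAlg.lean`; Hermitian matrix from `IsHForm.herm`).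
* `geod_no_corner`: the limit in `geod_tendsto_hdist_div` is `2` (`tendsto_nhds_unique`, `Filter.Tendsto.congr'`, `2 t / t = 2`, `𝓝[>] 0` is `NeBot`), so `ambQ x (w₁ - w₂) = 4`; parallelogram: `ambQ x (w₁ + w₂) = 0`; `ambQ_pos` (contrapositive), `CMfd.tangent_add`, `CMfd.deriv_mem_tangent`.
* `geod_speed_of_isometric`: `c₂ := fun _ => x`; the limit is `1`.
-/

set_option autoImplicit false
set_option linter.unusedSectionVars false
set_option linter.unusedVariables false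
open scoped ContDiff ComplexOrder Topology

namespace Claimed.Agent.R316

variable {V : Type} [NormedAddCommGroup V] [NormedSpace ℝ V] [FiniteDimensional ℝ V]
variable {ι : Type} [Fintype ι] [DecidableEq ι]
variable {𝓜 : CMfd V ι} {h : HFam V ι}

theorem geod_qf_parallelogram (A : Matrix ι ι ℂ) (u v : ι → ℂ) :
    qf A (u + v) + qf A (u - v) = 2 * qf A u + 2 * qf A v := by
  simp only [qf, Matrix.mulVec_add, Matrix.mulVec_sub, star_add, star_sub, add_dotProduct,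
    sub_dotProduct, dotProduct_add, dotProduct_sub, Complex.add_re, Complex.sub_re]
  ring

/-- parallelogram identity. -/
theorem ambQ_parallelogram (hm : IsHForm 𝓜 h) {x a b : V} (hx : x ∈ 𝓜.carrier)
    (ha : a ∈ 𝓜.tangent x) (hb : b ∈ 𝓜.tangent x) :
    ambQ 𝓜 h x (a + b) + ambQ 𝓜 h x (a - b) = 2 * ambQ 𝓜 h x a + 2 * ambQ 𝓜 h x b := by
  have hb' : (-1 : ℝ) • b ∈ 𝓜.tangent x := CMfd.tangent_smul hx hb (-1)
  have e : a - b = a + (-1 : ℝ) • b := by simp [sub_eq_add_neg]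
  unfold ambQ
  rw [e, g0_coVec_add hx ha hb, g0_coVec_add hx ha hb', g0_coVec_smul hx hb]
  have key := geod_qf_parallelogram (h (𝓜.pΦ x) (𝓜.co x)) (coVec (𝓜.pΦ x) (𝓜.co x) a : ι → ℂ)
    (coVec (𝓜.pΦ x) (𝓜.co x) b : ι → ℂ)
  rw [← key]
  congr 2
  ext k
  simp [sub_eq_add_neg]

/-- the norm `√(qf A ·)` is positively homogeneous. -/
theorem geod_sqrt_qf_smul (A : Matrix ι ι ℂ) {t : ℝ} (ht : 0 ≤ t) (v : CE ι) :
    Real.sqrt (qf A (t • v : CE ι)) = t * Real.sqrt (qf A v) := by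
  have := qf_smul_vec A (v : ι → ℂ) (t : ℂ)
  rw [Complex.norm_real, Real.norm_eq_abs, sq_abs] at this
  have e : qf A (t • v : CE ι) = t ^ 2 * qf A v := by
    rw [← this]
    congr 1
  rw [e, Real.sqrt_mul (sq_nonneg t), Real.sqrt_sq ht]

/-- **first order behaviour of the distance** of two curves issuing from the same point. -/
theorem geod_tendsto_hdist_div (hm : IsMetric 𝓜 h) {c₁ c₂ : ℝ → V} {x : V}
    (h₁ : DifferentiableAt ℝ c₁ 0) (h₂ : DifferentiableAt ℝ c₂ 0) (hx₁ : c₁ 0 = x) (hx₂ : c₂ 0 = x)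
    (hm₁ : ∀ᶠ t in 𝓝 (0 : ℝ), c₁ t ∈ 𝓜.carrier) (hm₂ : ∀ᶠ t in 𝓝 (0 : ℝ), c₂ t ∈ 𝓜.carrier) :
    Filter.Tendsto (fun t : ℝ => hdist 𝓜 h (c₁ t) (c₂ t) / t) (𝓝[>] 0)
      (𝓝 (Real.sqrt (ambQ 𝓜 h x (deriv c₁ 0 - deriv c₂ 0)))) := by
  have hx : x ∈ 𝓜.carrier := hx₁ ▸ hm₁.self_of_nhds
  obtain ⟨Φ, U, hΦ, z₀, hz₀, hxz⟩ := 𝓜.cover x hx
  have hp := 𝓜.isParam hΦ
  have hcurve : ∀ c : ℝ → V, DifferentiableAt ℝ c 0 → c 0 = x →
      (∀ᶠ t in 𝓝 (0 : ℝ), c t ∈ 𝓜.carrier) →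
      ∃ e : ℝ → CE ι, DifferentiableAt ℝ e 0 ∧ e 0 = z₀ ∧ deriv c 0 = fderiv ℝ Φ z₀ (deriv e 0) ∧
        ∀ᶠ t in 𝓝 (0 : ℝ), e t ∈ U ∧ Φ (e t) = c t := by
    intro c hc hc0 hcm
    have hc0' : c 0 ∈ Φ '' U := ⟨z₀, hz₀, hxz.trans hc0.symm⟩
    obtain ⟨hd, hf⟩ := hp.hasFDerivAt_invFunOn_comp hc hcm hc0'
    have he0 : Function.invFunOn Φ U (c 0) = z₀ := by
      rw [hc0, ← hxz]
      exact hp.leftInv hz₀
    refine ⟨Function.invFunOn Φ U ∘ c, hd, he0, ?_, ?_⟩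
    · have := hf 1
      rwa [fderiv_apply_one_eq_deriv, fderiv_apply_one_eq_deriv, he0] at this
    · obtain ⟨O, hO, hOeq⟩ := hp.image
      have hcO : c 0 ∈ O := (hOeq ▸ hc0' : c 0 ∈ 𝓜.carrier ∩ O).2
      filter_upwards [hcm, hc.continuousAt (hO.mem_nhds hcO)] with t ht1 ht2
      have : c t ∈ Φ '' U := by
        rw [hOeq]
        exact ⟨ht1, ht2⟩
      exact ⟨hp.invFunOn_mem this, hp.rightInv this⟩
  obtain ⟨e₁, hd₁, he₁, hv₁, hev₁⟩ := hcurve c₁ h₁ hx₁ hm₁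
  obtain ⟨e₂, hd₂, he₂, hv₂, hev₂⟩ := hcurve c₂ h₂ hx₂ hm₂
  have hL : ambQ 𝓜 h x (deriv c₁ 0 - deriv c₂ 0) = qf (h Φ z₀) (deriv e₁ 0 - deriv e₂ 0 : CE ι) := by
    rw [hv₁, hv₂, ← map_sub, ← hxz, ambQ_param hm.toIsHForm hΦ hz₀]
  rw [hL]
  have Hcmp := fun (ε : ℝ) (hε : 0 < ε) => hdist_local_compare hm hΦ hz₀ hε
  generalize h Φ z₀ = A at *
  generalize hw : deriv e₁ 0 - deriv e₂ 0 = w at *
  have hg : HasDerivAt (fun t => e₁ t - e₂ t) w 0 := hw ▸ hd₁.hasDerivAt.sub hd₂.hasDerivAt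
  have hslope : Filter.Tendsto (fun t : ℝ => t⁻¹ • (e₁ t - e₂ t)) (𝓝[>] 0) (𝓝 w) := by
    have := hg.tendsto_slope_zero_right
    simpa [he₁, he₂] using this
  have hN : Filter.Tendsto (fun t : ℝ => Real.sqrt (qf A (e₁ t - e₂ t : CE ι)) / t) (𝓝[>] 0)
      (𝓝 (Real.sqrt (qf A w))) := by
    have h1 : Filter.Tendsto (fun t : ℝ => Real.sqrt (qf A (t⁻¹ • (e₁ t - e₂ t) : CE ι))) (𝓝[>] 0)
        (𝓝 (Real.sqrt (qf A w))) :=
      ((Real.continuous_sqrt.comp (g0_continuous_qf A)).tendsto w).comp hslope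
    refine h1.congr' ?_
    filter_upwards [self_mem_nhdsWithin] with t ht
    rw [geod_sqrt_qf_smul A (inv_nonneg.2 (le_of_lt ht)), div_eq_inv_mul]
  rw [Metric.tendsto_nhds]
  intro η hη
  generalize Real.sqrt (qf A w) = L at *
  have hL0 : 0 ≤ L := by
    refine ge_of_tendsto hN ?_
    filter_upwards [self_mem_nhdsWithin] with t ht
    exact div_nonneg (Real.sqrt_nonneg _) (le_of_lt ht)
  have hε0 : 0 < η / (2 * (L + 1)) := by positivity
  obtain ⟨δ, hδ, hδU, Hδ⟩ := Hcmp _ hε0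
  have hb₁ : ∀ᶠ t in 𝓝 (0 : ℝ), e₁ t ∈ Metric.ball z₀ δ := by
    have := hd₁.continuousAt
    rw [ContinuousAt, he₁] at this
    exact this (Metric.ball_mem_nhds z₀ hδ)
  have hb₂ : ∀ᶠ t in 𝓝 (0 : ℝ), e₂ t ∈ Metric.ball z₀ δ := by
    have := hd₂.continuousAt
    rw [ContinuousAt, he₂] at this
    exact this (Metric.ball_mem_nhds z₀ hδ)
  have hN' := Metric.tendsto_nhds.1 hN (min 1 (η / 2)) (by positivity)
  filter_upwards [hN', nhdsWithin_le_nhds hb₁, nhdsWithin_le_nhds hb₂, nhdsWithin_le_nhds hev₁,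
    nhdsWithin_le_nhds hev₂, self_mem_nhdsWithin] with t h1 h2 h3 h4 h5 ht
  have ht0 : 0 < t := ht
  obtain ⟨lo', hi'⟩ := Hδ (e₁ t) h2 (e₂ t) h3
  rw [h4.2, h5.2] at lo' hi'
  have lo : (1 - η / (2 * (L + 1))) * Real.sqrt (qf A (e₁ t - e₂ t : CE ι)) ≤
      hdist 𝓜 h (c₁ t) (c₂ t) := lo'
  have hi : hdist 𝓜 h (c₁ t) (c₂ t) ≤
      (1 + η / (2 * (L + 1))) * Real.sqrt (qf A (e₁ t - e₂ t : CE ι)) := hi'
  clear lo' hi'
  have hn0 : 0 ≤ Real.sqrt (qf A (e₁ t - e₂ t : CE ι)) := Real.sqrt_nonneg _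
  generalize Real.sqrt (qf A (e₁ t - e₂ t : CE ι)) = n at *
  generalize hdist 𝓜 h (c₁ t) (c₂ t) = d at *
  generalize hε : η / (2 * (L + 1)) = ε at *
  rw [Real.dist_eq] at h1 ⊢
  have h1a : |n / t - L| < 1 := lt_of_lt_of_le h1 (min_le_left _ _)
  have h1b : |n / t - L| < η / 2 := lt_of_lt_of_le h1 (min_le_right _ _)
  have hG : n / t < L + 1 := by linarith [(abs_lt.1 h1a).2]
  have hG0 : 0 ≤ n / t := div_nonneg hn0 ht0.le
  have e1 : |d / t - n / t| ≤ ε * (n / t) := by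
    rw [abs_le]
    constructor
    · have h6 : (1 - ε) * n / t ≤ d / t := div_le_div_of_nonneg_right lo ht0.le
      have h7 : (1 - ε) * n / t = n / t - ε * (n / t) := by ring
      linarith
    · have h6 : d / t ≤ (1 + ε) * n / t := div_le_div_of_nonneg_right hi ht0.le
      have h7 : (1 + ε) * n / t = n / t + ε * (n / t) := by ring
      linarith
  have e2 : ε * (n / t) ≤ ε * (L + 1) := mul_le_mul_of_nonneg_left hG.le hε0.le
  have e3 : ε * (L + 1) = η / 2 := by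
    rw [← hε]
    field_simp
  have e4 := abs_sub_le (d / t) (n / t) L
  linarith

/-- **no corner**: two unit speed curves issuing from `x` whose points at time `t` have distance `2 t` leave `x` in opposite directions. -/
theorem geod_no_corner (hm : IsMetric 𝓜 h) {c₁ c₂ : ℝ → V} {x : V}
    (h₁ : DifferentiableAt ℝ c₁ 0) (h₂ : DifferentiableAt ℝ c₂ 0) (hx₁ : c₁ 0 = x) (hx₂ : c₂ 0 = x)
    (hm₁ : ∀ᶠ t in 𝓝 (0 : ℝ), c₁ t ∈ 𝓜.carrier) (hm₂ : ∀ᶠ t in 𝓝 (0 : ℝ), c₂ t ∈ 𝓜.carrier)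
    (hu₁ : ambQ 𝓜 h x (deriv c₁ 0) = 1) (hu₂ : ambQ 𝓜 h x (deriv c₂ 0) = 1)
    (hd : ∀ᶠ t in 𝓝[>] (0 : ℝ), hdist 𝓜 h (c₁ t) (c₂ t) = 2 * t) :
    deriv c₁ 0 = - deriv c₂ 0 := by
  have hx : x ∈ 𝓜.carrier := hx₁ ▸ hm₁.self_of_nhds
  have ht₁ : deriv c₁ 0 ∈ 𝓜.tangent x := hx₁ ▸ CMfd.deriv_mem_tangent h₁ hm₁
  have ht₂ : deriv c₂ 0 ∈ 𝓜.tangent x := hx₂ ▸ CMfd.deriv_mem_tangent h₂ hm₂
  have hlim := geod_tendsto_hdist_div hm h₁ h₂ hx₁ hx₂ hm₁ hm₂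
  have hlim2 : Filter.Tendsto (fun t : ℝ => hdist 𝓜 h (c₁ t) (c₂ t) / t) (𝓝[>] 0) (𝓝 2) := by
    refine tendsto_const_nhds.congr' ?_
    filter_upwards [hd, self_mem_nhdsWithin] with t ht ht0
    have ht0' : t ≠ 0 := ne_of_gt ht0
    rw [ht]
    field_simp
  have h2 := tendsto_nhds_unique hlim hlim2
  have h4 : ambQ 𝓜 h x (deriv c₁ 0 - deriv c₂ 0) = 4 := by
    have h3 := Real.sq_sqrt (ambQ_nonneg hm hx (deriv c₁ 0 - deriv c₂ 0))
    rw [h2] at h3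
    linarith
  have hpar := ambQ_parallelogram hm.toIsHForm hx ht₁ ht₂
  rw [h4, hu₁, hu₂] at hpar
  have h0 : ambQ 𝓜 h x (deriv c₁ 0 + deriv c₂ 0) = 0 := by linarith
  by_contra hne
  have hne' : deriv c₁ 0 + deriv c₂ 0 ≠ 0 := fun h' => hne (eq_neg_of_add_eq_zero_left h')
  exact (ambQ_pos hm hx (CMfd.tangent_add hx ht₁ ht₂) hne').ne' h0

/-- a differentiable curve which is parametrised isometrically near `t₀` (on the right) has unit speed at `t₀`. -/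
theorem geod_speed_of_isometric (hm : IsMetric 𝓜 h) {c : ℝ → V} {t₀ : ℝ}
    (h₁ : DifferentiableAt ℝ c t₀) (hm₁ : ∀ᶠ t in 𝓝 t₀, c t ∈ 𝓜.carrier)
    (hd : ∀ᶠ t in 𝓝[>] t₀, hdist 𝓜 h (c t₀) (c t) = t - t₀) :
    ambQ 𝓜 h (c t₀) (deriv c t₀) = 1 := by
  have hx : c t₀ ∈ 𝓜.carrier := hm₁.self_of_nhds
  have hshift : Filter.Tendsto (fun t : ℝ => t + t₀) (𝓝 0) (𝓝 t₀) := by
    have : Filter.Tendsto (fun t : ℝ => t + t₀) (𝓝 0) (𝓝 (0 + t₀)) :=
      (continuous_id.add continuous_const).tendsto 0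
    rwa [zero_add] at this
  have hshift' : Filter.Tendsto (fun t : ℝ => t + t₀) (𝓝[>] 0) (𝓝[>] t₀) := by
    refine tendsto_nhdsWithin_iff.2 ⟨hshift.mono_left nhdsWithin_le_nhds, ?_⟩
    filter_upwards [self_mem_nhdsWithin] with t ht
    have : (0 : ℝ) < t := ht
    show t₀ < t + t₀
    linarith
  have hdc : DifferentiableAt ℝ (fun t => c (t + t₀)) 0 := by
    have h' : DifferentiableAt ℝ c ((fun t : ℝ => t + t₀) 0) := by simpa using h₁
    exact h'.comp (0 : ℝ) (differentiableAt_id.add_const t₀)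
  have hder : deriv (fun t => c (t + t₀)) 0 = deriv c t₀ := by
    have := deriv_comp_add_const (f := c) t₀ (0 : ℝ)
    simpa using this
  have hlim := geod_tendsto_hdist_div hm (c₁ := fun t => c (t + t₀)) (c₂ := fun _ => c t₀)
    (x := c t₀) hdc (differentiableAt_const _) (by simp) rfl (hshift.eventually hm₁)
    (Filter.Eventually.of_forall fun _ => hx)
  rw [hder, deriv_const, sub_zero] at hlim
  have hlim2 : Filter.Tendsto (fun t : ℝ => hdist 𝓜 h (c (t + t₀)) (c t₀) / t) (𝓝[>] 0) (𝓝 1) := by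
    refine tendsto_const_nhds.congr' ?_
    filter_upwards [hshift'.eventually hd, self_mem_nhdsWithin] with t ht ht0
    have ht0' : t ≠ 0 := ne_of_gt ht0
    rw [hdist_comm hm, ht]
    field_simp
    ring
  have h2 := tendsto_nhds_unique hlim hlim2
  have h3 := Real.sq_sqrt (ambQ_nonneg hm hx (deriv c t₀))
  rw [h2] at h3
  linarith

end Claimed.Agent.R316
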