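import Claimed.Agent.R316.Base.Geod.Loc
import Claimed.Agent.R316.Base.RGeo.Exp

/-!
# Row 316 base layer, `BP-G4`, leaf `G4-UNIQ`: constant speed, local existence, uniqueness, gluing of geodesics

Sub-captain of `BP-G4`: helper256.  Statements of `IsGeodesic.ambQ_const`, `exists_geodesic`, `IsGeodesic.eqOn`: helper97 (export file `Api.lean`), verbatim.
STATUS: this file is sorry-free (proved from the imported statements).
Chart level black boxes: `BP-G1` (`Base/RGeo/{Kahler,Exp}.lean`: `kgeo` is `IsRiem`; constant speed of `IsGeod`; existence of `IsGeod` with a prescribed 1-jet; uniqueness of `IsGeod` from the 1-jet).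

RECIPE.
* `geod_exists_chart_nhds`: `γ t₀ ∈ Φ '' U` (`𝓜.cover`); the image is relatively open (`IsParam.image`), `γ` is continuous at `t₀` and stays in the carrier: an open interval `J ∋ t₀`, `J ⊆ I`.
* `IsGeodesic.ambQ_const`: the function `q t = ambQ (γ t) (γ' t)` is locally constant on the preconnected set `Ioo a b`: near `t₀` it is `G (c t) (c' t) (c' t)` of the chart geodesic `c`
  (`IsGeodesic.ambQ_coord`; `(kgeo h Φ U).G z a a = qf (h Φ z) a` by `rfl`/`mkBil_apply`), constant by `BP-G1`.  `IsPreconnected.constant_of_...` / `IsLocallyConstant` on the subtype, or: `q` has derivative `0` on `Ioo a b`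
  (`is_const_of_deriv_eq_zero`-type lemma on an open interval: `IsOpen.is_const_of_deriv_eq_zero`/`Convex.is_const_of_fderivWithin_eq_zero`).
* `exists_geodesic`: `x = Φ z`, `v = dΦ_z a` (`CMfd.tangent_eq`); chart geodesic `c` on `Ioo (-ε) ε` with `c 0 = z`, `c' 0 = a`; `isGeodesic_of_isGeod`, `geod_deriv_comp`.
* `IsGeodesic.eqOn`: `A = {t ∈ Ioo a b | γ t = γ' t ∧ deriv γ t = deriv γ' t}` is closed in `Ioo a b` (continuity of `γ, γ', deriv γ, deriv γ'`: `IsGeodesic.contDiffOn_deriv`) and open: at `t₁ ∈ A` take a common chart interval `J`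
  (`geod_exists_chart_nhds` for both curves and the same `(Φ,U)`), the coordinate curves have the same 1-jet at `t₁` (`dΦ` injective: `IsParam.immersion`), so they agree on `J` (`BP-G1`), hence `γ = γ'` on `J` and the derivatives agree on the open set `J`.
  `IsPreconnected.subset_of_closure_inter_subset` / `IsClopen` in the subtype `Ioo a b` (`isPreconnected_Ioo`).
* `IsGeodesic.glue`: `σ t := if t < b then γ t else γ' t`... simpler: `σ := fun t => if t ∈ Ioo a b then γ t else γ' t`.  On `Ioo a b ∩ Ioo c d = Ioo (max a c) (min b d)` the two geodesics agree (`IsGeodesic.eqOn` after `IsGeodesic.mono`), so `σ = γ` on `Ioo a b`, `σ = γ'` on `Ioo c d`;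
  `IsGeodesic.congr`, `IsGeodesic.union`; `Ioo a b ∪ Ioo c d = Ioo (min a c) (max b d)` because the intervals overlap (`Set.Ioo_union_Ioo`).
-/

set_option autoImplicit false
set_option linter.unusedSectionVars false
set_option linter.unusedVariables false
open scoped ContDiff ComplexOrder Topology

namespace Claimed.Agent.R316

variable {V : Type} [NormedAddCommGroup V] [NormedSpace ℝ V] [FiniteDimensional ℝ V]
variable {ι : Type} [Fintype ι] [DecidableEq ι]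
variable {𝓜 : CMfd V ι} {h : HFam V ι} {γ γ' : ℝ → V}

/-- **connectedness principle** on an interval: a property which is locally constant (in the sense below) and holds at one time holds at all times. -/
theorem geod_Ioo_induction {a b : ℝ} {P : ℝ → Prop} {t₀ : ℝ} (ht₀ : t₀ ∈ Set.Ioo a b) (h0 : P t₀)
    (hloc : ∀ t ∈ Set.Ioo a b, ∃ δ > 0, ∀ s ∈ Set.Ioo (t - δ) (t + δ), ∀ s' ∈ Set.Ioo (t - δ) (t + δ),
      s ∈ Set.Ioo a b → s' ∈ Set.Ioo a b → P s → P s') : ∀ t ∈ Set.Ioo a b, P t := by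
  by_contra hcon
  push Not at hcon
  obtain ⟨t₁, ht₁, hP₁⟩ := hcon
  have hopen : ∀ Q : ℝ → Prop, (∀ t ∈ Set.Ioo a b, ∃ δ > 0, ∀ s ∈ Set.Ioo (t - δ) (t + δ),
      s ∈ Set.Ioo a b → Q t → Q s) → IsOpen {t | t ∈ Set.Ioo a b ∧ Q t} := by
    intro Q hQ
    rw [Metric.isOpen_iff]
    rintro t ⟨ht, hQt⟩
    obtain ⟨δ, hδ, H⟩ := hQ t ht
    obtain ⟨ε, hε, hεs⟩ := Metric.isOpen_iff.1 isOpen_Ioo t ht
    refine ⟨min δ ε, lt_min hδ hε, fun s hs => ?_⟩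
    have hs1 : s ∈ Set.Ioo a b := hεs (Metric.ball_subset_ball (min_le_right _ _) hs)
    have hs2 : s ∈ Set.Ioo (t - δ) (t + δ) := by
      rw [← Real.ball_eq_Ioo]
      exact Metric.ball_subset_ball (min_le_left _ _) hs
    exact ⟨hs1, H s hs2 hs1 hQt⟩
  have hA : IsOpen {t | t ∈ Set.Ioo a b ∧ P t} := by
    refine hopen P fun t ht => ?_
    obtain ⟨δ, hδ, H⟩ := hloc t ht
    exact ⟨δ, hδ, fun s hs hs' hPt => H t ⟨by linarith, by linarith⟩ s hs ht hs' hPt⟩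
  have hB : IsOpen {t | t ∈ Set.Ioo a b ∧ ¬ P t} := by
    refine hopen (fun t => ¬ P t) fun t ht => ?_
    obtain ⟨δ, hδ, H⟩ := hloc t ht
    exact ⟨δ, hδ, fun s hs hs' hPt hPs => hPt (H s hs t ⟨by linarith, by linarith⟩ hs' ht hPs)⟩
  obtain ⟨t, -, ht1, ht2⟩ := isPreconnected_Ioo (a := a) (b := b) _ _ hA hB
    (fun t ht => by
      by_cases hP : P t
      · exact Or.inl ⟨ht, hP⟩
      · exact Or.inr ⟨ht, hP⟩) ⟨t₀, ht₀, ht₀, h0⟩ ⟨t₁, ht₁, ht₁, hP₁⟩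
  exact ht2.2 ht1.2

/-- near a time `t₀` a continuous curve in the carrier stays in the image of a given parametrisation around `γ t₀`. -/
theorem geod_exists_chart_nhds {I : Set ℝ} (hI : IsOpen I) (hc : ContinuousOn γ I)
    (hmem : ∀ t ∈ I, γ t ∈ 𝓜.carrier) {t₀ : ℝ} (ht₀ : t₀ ∈ I) {Φ : CE ι → V} {U : Set (CE ι)}
    (hΦ : 𝓜.IsHol Φ U) (hx : γ t₀ ∈ Φ '' U) :
    ∃ δ > 0, Set.Ioo (t₀ - δ) (t₀ + δ) ⊆ I ∧ ∀ t ∈ Set.Ioo (t₀ - δ) (t₀ + δ), γ t ∈ Φ '' U := by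
  obtain ⟨O, hO, hOeq⟩ := (𝓜.isParam hΦ).image
  have hxO : γ t₀ ∈ O := (hOeq ▸ hx : γ t₀ ∈ 𝓜.carrier ∩ O).2
  have h1 : γ ⁻¹' O ∈ 𝓝 t₀ := (hc.continuousAt (hI.mem_nhds ht₀)) (hO.mem_nhds hxO)
  obtain ⟨δ, hδ, hsub⟩ := Metric.mem_nhds_iff.1 (Filter.inter_mem (hI.mem_nhds ht₀) h1)
  rw [Real.ball_eq_Ioo] at hsub
  refine ⟨δ, hδ, fun t ht => (hsub ht).1, fun t ht => ?_⟩
  rw [hOeq]
  exact ⟨hmem t (hsub ht).1, (hsub ht).2⟩

/-- constant speed. -/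
theorem IsGeodesic.ambQ_const (hk : IsKahler 𝓜 h) {a b : ℝ} (hγ : IsGeodesic 𝓜 h γ (Set.Ioo a b))
    {s t : ℝ} (hs : s ∈ Set.Ioo a b) (ht : t ∈ Set.Ioo a b) :
    ambQ 𝓜 h (γ s) (deriv γ s) = ambQ 𝓜 h (γ t) (deriv γ t) := by
  refine (geod_Ioo_induction (P := fun r => ambQ 𝓜 h (γ r) (deriv γ r) = ambQ 𝓜 h (γ s) (deriv γ s))
    hs rfl (fun t₁ ht₁ => ?_) t ht).symm
  obtain ⟨Φ, U, hΦ, hx⟩ := 𝓜.cover _ (hγ.2.1 t₁ ht₁)
  obtain ⟨δ, hδ, hsub, hch⟩ := geod_exists_chart_nhds isOpen_Ioo hγ.1.continuousOn hγ.2.1 ht₁ hΦ hx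
  refine ⟨δ, hδ, fun r hr r' hr' _ _ hP => ?_⟩
  have hγJ := hγ.mono hsub
  have hc := (hγJ.coord isOpen_Ioo hΦ hch).1
  have e1 := hγJ.ambQ_coord hk.toIsHForm isOpen_Ioo hΦ hch hr
  have e2 := hγJ.ambQ_coord hk.toIsHForm isOpen_Ioo hΦ hch hr'
  have e3 := hc.G_const (kgeo_isRiem hk hΦ) isOpen_Ioo Set.ordConnected_Ioo hr hr'
  rw [kgeo_G_self, kgeo_G_self] at e3
  show ambQ 𝓜 h (γ r') (deriv γ r') = _
  rw [e2, ← e3, ← e1]
  exact hP

/-- local existence. -/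
theorem exists_geodesic (hk : IsKahler 𝓜 h) {x v : V} (hx : x ∈ 𝓜.carrier) (hv : v ∈ 𝓜.tangent x) :
    ∃ (γ : ℝ → V) (ε : ℝ), 0 < ε ∧ IsGeodesic 𝓜 h γ (Set.Ioo (-ε) ε) ∧ γ 0 = x ∧ deriv γ 0 = v := by
  obtain ⟨Φ, U, hΦ, z, hz, rfl⟩ := 𝓜.cover x hx
  rw [CMfd.tangent_eq hΦ hz] at hv
  obtain ⟨a, rfl⟩ := hv
  have hS := kgeo_isRiem hk hΦ
  have h0 : (0 : ℝ) ∈ {t | (t, (z, a)) ∈ (kgeo h Φ U).gdm} := RGeo.zero_mem_gdm.2 hz
  obtain ⟨ε, hε, hsub⟩ := Metric.isOpen_iff.1 (hS.isOpen_gdm_times z a) 0 h0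
  rw [Real.ball_eq_Ioo, zero_sub, zero_add] at hsub
  have hc := (hS.isGeod_gfl z a).mono hsub
  have hd := hS.hasDerivAt_gfl_fst h0
  rw [RGeo.gfl_zero] at hd
  have hc0 : ((kgeo h Φ U).gfl 0 (z, a)).1 = z := by rw [RGeo.gfl_zero]
  refine ⟨Φ ∘ fun r => ((kgeo h Φ U).gfl r (z, a)).1, ε, hε,
    isGeodesic_of_isGeod hk hΦ isOpen_Ioo hc, ?_, ?_⟩
  · show Φ ((kgeo h Φ U).gfl 0 (z, a)).1 = Φ z
    rw [hc0]
  · rw [geod_deriv_comp hΦ hd.differentiableAt (by rw [hc0]; exact hz), hd.deriv, hc0]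

/-- uniqueness. -/
theorem IsGeodesic.eqOn (hk : IsKahler 𝓜 h) {γ' : ℝ → V} {a b t₀ : ℝ}
    (hγ : IsGeodesic 𝓜 h γ (Set.Ioo a b)) (hγ' : IsGeodesic 𝓜 h γ' (Set.Ioo a b))
    (ht₀ : t₀ ∈ Set.Ioo a b) (h0 : γ t₀ = γ' t₀) (h1 : deriv γ t₀ = deriv γ' t₀) :
    Set.EqOn γ γ' (Set.Ioo a b) := by
  have key := geod_Ioo_induction (P := fun r => γ r = γ' r ∧ deriv γ r = deriv γ' r) ht₀ ⟨h0, h1⟩
    (fun t ht => ?_)
  · exact fun t ht => (key t ht).1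
  by_cases hne : γ t = γ' t
  · obtain ⟨Φ, U, hΦ, hx⟩ := 𝓜.cover _ (hγ.2.1 t ht)
    have hp := 𝓜.isParam hΦ
    obtain ⟨δ₁, hδ₁, hsub₁, hch₁⟩ :=
      geod_exists_chart_nhds isOpen_Ioo hγ.1.continuousOn hγ.2.1 ht hΦ hx
    obtain ⟨δ₂, hδ₂, hsub₂, hch₂⟩ :=
      geod_exists_chart_nhds isOpen_Ioo hγ'.1.continuousOn hγ'.2.1 ht hΦ (hne ▸ hx)
    have hJ₁ : Set.Ioo (t - min δ₁ δ₂) (t + min δ₁ δ₂) ⊆ Set.Ioo (t - δ₁) (t + δ₁) := fun r hr =>
      ⟨by linarith [hr.1, min_le_left δ₁ δ₂], by linarith [hr.2, min_le_left δ₁ δ₂]⟩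
    have hJ₂ : Set.Ioo (t - min δ₁ δ₂) (t + min δ₁ δ₂) ⊆ Set.Ioo (t - δ₂) (t + δ₂) := fun r hr =>
      ⟨by linarith [hr.1, min_le_right δ₁ δ₂], by linarith [hr.2, min_le_right δ₁ δ₂]⟩
    refine ⟨min δ₁ δ₂, lt_min hδ₁ hδ₂, fun r hr r' hr' _ _ hP => ?_⟩
    obtain ⟨hc, Hc⟩ := (hγ.mono (hJ₁.trans hsub₁)).coord isOpen_Ioo hΦ fun s hs => hch₁ s (hJ₁ hs)
    obtain ⟨hc', Hc'⟩ := (hγ'.mono (hJ₂.trans hsub₂)).coord isOpen_Ioo hΦ fun s hs => hch₂ s (hJ₂ hs)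
    have e0 : (Function.invFunOn Φ U ∘ γ) r = (Function.invFunOn Φ U ∘ γ') r := by
      show Function.invFunOn Φ U (γ r) = Function.invFunOn Φ U (γ' r)
      rw [hP.1]
    have e1 : deriv (Function.invFunOn Φ U ∘ γ) r = deriv (Function.invFunOn Φ U ∘ γ') r := by
      apply hp.immersion _ (Hc r hr).1
      rw [← (Hc r hr).2.2, e0, ← (Hc' r hr).2.2]
      exact hP.2
    have heq := hc.eqOn (kgeo_isRiem hk hΦ) isOpen_Ioo Set.ordConnected_Ioo hc' hr e0 e1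
    have heq' : Set.EqOn γ γ' (Set.Ioo (t - min δ₁ δ₂) (t + min δ₁ δ₂)) := fun s hs => by
      rw [← (Hc s hs).2.1, ← (Hc' s hs).2.1, heq hs]
    refine ⟨heq' hr', Filter.EventuallyEq.deriv_eq ?_⟩
    filter_upwards [isOpen_Ioo.mem_nhds hr'] with s hs using heq' hs
  · have hcont : ContinuousAt (fun s => (γ s, γ' s)) t :=
      (hγ.1.continuousOn.continuousAt (isOpen_Ioo.mem_nhds ht)).prodMk
        (hγ'.1.continuousOn.continuousAt (isOpen_Ioo.mem_nhds ht))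
    have hopen : IsOpen {q : V × V | q.1 ≠ q.2} := isOpen_ne_fun continuous_fst continuous_snd
    obtain ⟨δ, hδ, hsub⟩ := Metric.mem_nhds_iff.1 (hcont (hopen.mem_nhds hne))
    rw [Real.ball_eq_Ioo] at hsub
    exact ⟨δ, hδ, fun r hr r' hr' _ _ hP => absurd hP.1 (hsub hr)⟩

/-- gluing of two geodesics with a common 1-jet. -/
theorem IsGeodesic.glue (hk : IsKahler 𝓜 h) {a b c d t₀ : ℝ}
    (hγ : IsGeodesic 𝓜 h γ (Set.Ioo a b)) (hγ' : IsGeodesic 𝓜 h γ' (Set.Ioo c d))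
    (ht₀ : t₀ ∈ Set.Ioo a b) (ht₀' : t₀ ∈ Set.Ioo c d) (h0 : γ t₀ = γ' t₀)
    (h1 : deriv γ t₀ = deriv γ' t₀) :
    ∃ σ : ℝ → V, IsGeodesic 𝓜 h σ (Set.Ioo (min a c) (max b d)) ∧ Set.EqOn σ γ (Set.Ioo a b) ∧
      Set.EqOn σ γ' (Set.Ioo c d) := by
  classical
  have hov : Set.EqOn γ γ' (Set.Ioo (max a c) (min b d)) :=
    (hγ.mono fun t ht => ⟨(le_max_left _ _).trans_lt ht.1, ht.2.trans_le (min_le_left _ _)⟩).eqOn hk
      (hγ'.mono fun t ht => ⟨(le_max_right _ _).trans_lt ht.1, ht.2.trans_le (min_le_right _ _)⟩)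
      ⟨max_lt ht₀.1 ht₀'.1, lt_min ht₀.2 ht₀'.2⟩ h0 h1
  have e1 : Set.EqOn (fun t => if t ∈ Set.Ioo a b then γ t else γ' t) γ (Set.Ioo a b) :=
    fun t ht => if_pos ht
  have e2 : Set.EqOn (fun t => if t ∈ Set.Ioo a b then γ t else γ' t) γ' (Set.Ioo c d) := by
    intro t ht
    show (if t ∈ Set.Ioo a b then γ t else γ' t) = γ' t
    split_ifs with h'
    · exact hov ⟨max_lt h'.1 ht.1, lt_min h'.2 ht.2⟩
    · rfl
  refine ⟨fun t => if t ∈ Set.Ioo a b then γ t else γ' t, ?_, e1, e2⟩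
  refine (IsGeodesic.union isOpen_Ioo isOpen_Ioo (hγ.congr e1) (hγ'.congr e2)).mono fun t ht => ?_
  rcases le_total t t₀ with hle | hle
  · rcases min_lt_iff.1 ht.1 with h' | h'
    · exact Or.inl ⟨h', hle.trans_lt ht₀.2⟩
    · exact Or.inr ⟨h', hle.trans_lt ht₀'.2⟩
  · rcases lt_max_iff.1 ht.2 with h' | h'
    · exact Or.inl ⟨ht₀.1.trans_le hle, h'⟩
    · exact Or.inr ⟨ht₀'.1.trans_le hle, h'⟩

/-- gluing of two geodesics which agree near a common time. -/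
theorem IsGeodesic.glue_of_eventuallyEq (hk : IsKahler 𝓜 h) {γ' : ℝ → V} {a b c d t₀ : ℝ}
    (hγ : IsGeodesic 𝓜 h γ (Set.Ioo a b)) (hγ' : IsGeodesic 𝓜 h γ' (Set.Ioo c d))
    (ht₀ : t₀ ∈ Set.Ioo a b) (ht₀' : t₀ ∈ Set.Ioo c d) (he : γ =ᶠ[𝓝 t₀] γ') :
    ∃ σ : ℝ → V, IsGeodesic 𝓜 h σ (Set.Ioo (min a c) (max b d)) ∧ Set.EqOn σ γ (Set.Ioo a b) ∧
      Set.EqOn σ γ' (Set.Ioo c d) :=
  hγ.glue hk hγ' ht₀ ht₀' he.self_of_nhds he.deriv_eq

/-- translation of the parameter (special case of `IsGeodesic.comp_affine`). -/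
theorem IsGeodesic.shift {a b : ℝ} (hγ : IsGeodesic 𝓜 h γ (Set.Ioo a b)) (d : ℝ) :
    IsGeodesic 𝓜 h (fun t => γ (t + d)) (Set.Ioo (a - d) (b - d)) := by
  have := hγ.comp_affine 1 d
  refine (this.mono ?_).congr fun t _ => by simp
  intro t ht
  simp only [Set.mem_preimage, Set.mem_Ioo, one_mul] at ht ⊢
  constructor <;> linarith [ht.1, ht.2]

/-- reversal of the parameter. -/
theorem IsGeodesic.reverse {a b : ℝ} (hγ : IsGeodesic 𝓜 h γ (Set.Ioo a b)) (d : ℝ) :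
    IsGeodesic 𝓜 h (fun t => γ (d - t)) (Set.Ioo (d - b) (d - a)) := by
  have := hγ.comp_affine (-1) d
  refine (this.mono ?_).congr fun t _ => by
    show γ (d - t) = γ (-1 * t + d)
    congr 1; ring
  intro t ht
  simp only [Set.mem_preimage, Set.mem_Ioo] at ht ⊢
  constructor <;> linarith [ht.1, ht.2]

end Claimed.Agent.R316
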